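import Mathlib

/-! Counting tuples with respect to a sparse relation. -/

namespace Vale.Agent.P060

open Finset

section
variable {s N : ℕ} {V : Type*} [Fintype V] [DecidableEq V]

open Classical in
/-- number of common neighbours of a tuple -/
noncomputable def codeg (R : V → V → Prop) (ι : Fin s → Fin N → V) (b : Fin s → Fin N) : ℕ :=
  (univ.filter (fun v => ∀ j, R v (ι j (b j)))).card

open Classical in
/-- tuples through `(j0, x0)` with an edge between the coordinates `l` and `k` -/
lemma cnt_pair (R : V → V → Prop) (ι : Fin s → Fin N → V)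
    (hι : ∀ j x j' x', ι j x = ι j' x' → j = j' ∧ x = x') (D : ℕ)
    (hD : ∀ u, (univ.filter (fun v => R u v)).card ≤ D) (j0 k l : Fin s) (x0 : Fin N)
    (hk : k ≠ j0) (hkl : k ≠ l) :
    (univ.filter (fun b : Fin s → Fin N => b j0 = x0 ∧ R (ι l (b l)) (ι k (b k)))).card
      ≤ D * N ^ (s - 2) := by
  set T := univ.filter (fun b : Fin s → Fin N => b j0 = x0 ∧ R (ι l (b l)) (ι k (b k))) with hT
  let f : (Fin s → Fin N) → ({i : Fin s // i ≠ j0 ∧ i ≠ k} → Fin N) := fun b i => b i.1
  have hcard : Fintype.card ({i : Fin s // i ≠ j0 ∧ i ≠ k} → Fin N) = N ^ (s - 2) := by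
    rw [Fintype.card_fun, Fintype.card_fin]
    congr 1
    rw [Fintype.card_subtype]
    have h1 : (univ.filter (fun i : Fin s => i ≠ j0 ∧ i ≠ k)) = univ \ {j0, k} := by
      ext i
      simp
    rw [h1, Finset.card_sdiff_of_subset (Finset.subset_univ _), Finset.card_univ, Fintype.card_fin,
      Finset.card_pair hk.symm]
  have h1 : T.card ≤ D * (T.image f).card := by
    apply Finset.card_le_mul_card_image
    intro a ha
    obtain ⟨b0, hb0, hb0a⟩ := Finset.mem_image.1 ha
    rw [hT, mem_filter] at hb0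
    have hinj : Set.InjOn (fun b : Fin s → Fin N => ι k (b k))
        ((T.filter (fun b => f b = a) : Finset (Fin s → Fin N)) : Set (Fin s → Fin N)) := by
      intro b hb b' hb' hbb
      rw [mem_coe, mem_filter, hT, mem_filter] at hb hb'
      have h2 := (hι _ _ _ _ hbb).2
      funext i
      by_cases hi0 : i = j0
      · rw [hi0, hb.1.2.1, hb'.1.2.1]
      · by_cases hik : i = k
        · rw [hik]
          exact h2
        · have h3 : f b ⟨i, hi0, hik⟩ = f b' ⟨i, hi0, hik⟩ := by rw [hb.2, hb'.2]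
          exact h3
    have hmaps : ∀ b ∈ T.filter (fun b => f b = a),
        ι k (b k) ∈ univ.filter (fun v => R (ι l (b0 l)) v) := by
      intro b hb
      rw [mem_filter, hT, mem_filter] at hb
      rw [mem_filter]
      refine ⟨mem_univ _, ?_⟩
      have h4 : b0 l = b l := by
        by_cases hl0 : l = j0
        · rw [hl0, hb0.2.1, hb.1.2.1]
        · have h3 : f b0 ⟨l, hl0, hkl.symm⟩ = f b ⟨l, hl0, hkl.symm⟩ := by rw [hb.2, hb0a]
          exact h3
      rw [h4]
      exact hb.1.2.2
    exact (Finset.card_le_card_of_injOn _ hmaps hinj).trans (hD _)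
  refine h1.trans ?_
  apply Nat.mul_le_mul_left
  rw [← hcard]
  exact Finset.card_le_univ _

/-- tuples through `(j0, x0)` with the other coordinates in prescribed small sets -/
lemma cnt_pi (j0 : Fin s) (x0 : Fin N) (Y : Fin s → Finset (Fin N)) (D : ℕ)
    (hY : ∀ j, (Y j).card ≤ D) :
    (univ.filter (fun b : Fin s → Fin N => b j0 = x0 ∧ ∀ j, b j ∈ Y j)).card ≤ D ^ (s - 1) := by
  have h1 : univ.filter (fun b : Fin s → Fin N => b j0 = x0 ∧ ∀ j, b j ∈ Y j) ⊆
      Fintype.piFinset (fun j => if j = j0 then {x0} else Y j) := by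
    intro b hb
    rw [mem_filter] at hb
    rw [Fintype.mem_piFinset]
    intro j
    by_cases hj : j = j0
    · rw [if_pos hj, mem_singleton, hj]
      exact hb.2.1
    · rw [if_neg hj]
      exact hb.2.2 j
  refine (Finset.card_le_card h1).trans ?_
  rw [Fintype.card_piFinset, ← Finset.mul_prod_erase univ _ (mem_univ j0)]
  rw [if_pos rfl, card_singleton, one_mul]
  calc ∏ j ∈ univ.erase j0, (if j = j0 then ({x0} : Finset (Fin N)) else Y j).card
      ≤ ∏ j ∈ univ.erase j0, D := by
        apply Finset.prod_le_prod'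
        intro j hj
        rw [if_neg (Finset.ne_of_mem_erase hj)]
        exact hY j
    _ = D ^ (s - 1) := by
        rw [Finset.prod_const, Finset.card_erase_of_mem (mem_univ _), Finset.card_univ,
          Fintype.card_fin]

open Classical in
lemma cnt_row (R : V → V → Prop) (ι : Fin s → Fin N → V)
    (hι : ∀ j x j' x', ι j x = ι j' x' → j = j' ∧ x = x') (D : ℕ)
    (hD : ∀ u, (univ.filter (fun v => R u v)).card ≤ D) (u : V) (j : Fin s) :
    (univ.filter (fun y : Fin N => R u (ι j y))).card ≤ D := by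
  refine le_trans ?_ (hD u)
  apply Finset.card_le_card_of_injOn (fun y => ι j y)
  · intro y hy
    have hy' := (mem_filter.1 (mem_coe.1 hy)).2
    exact mem_coe.2 (mem_filter.2 ⟨mem_univ _, hy'⟩)
  · intro y _ y' _ h
    exact (hι _ _ _ _ h).2

open Classical in
lemma cnt_star (R : V → V → Prop) (ι : Fin s → Fin N → V)
    (hι : ∀ j x j' x', ι j x = ι j' x' → j = j' ∧ x = x') (D : ℕ)
    (hD : ∀ u, (univ.filter (fun v => R u v)).card ≤ D) (u : V) (j0 : Fin s) (x0 : Fin N) :
    (univ.filter (fun b : Fin s → Fin N => b j0 = x0 ∧ ∀ j, R u (ι j (b j)))).card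
      ≤ D ^ (s - 1) := by
  have h1 := cnt_pi j0 x0 (fun j => univ.filter (fun y : Fin N => R u (ι j y))) D
    (fun j => cnt_row R ι hι D hD u j)
  refine le_trans (Finset.card_le_card ?_) h1
  intro b hb
  rw [mem_filter] at hb ⊢
  refine ⟨mem_univ _, hb.2.1, fun j => ?_⟩
  rw [mem_filter]
  exact ⟨mem_univ _, hb.2.2 j⟩

open Classical in
/-- sum of the codegrees of the tuples through `(j0, x0)` -/
lemma cnt_codeg_sum (hs : 1 ≤ s) (R : V → V → Prop) (hR : ∀ u v, R u v → R v u)
    (ι : Fin s → Fin N → V)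
    (hι : ∀ j x j' x', ι j x = ι j' x' → j = j' ∧ x = x') (D : ℕ)
    (hD : ∀ u, (univ.filter (fun v => R u v)).card ≤ D) (j0 : Fin s) (x0 : Fin N) :
    ∑ b ∈ univ.filter (fun b : Fin s → Fin N => b j0 = x0), codeg R ι b ≤ D ^ s := by
  have h1 : ∀ b : Fin s → Fin N, codeg R ι b = ∑ v : V, (if ∀ j, R v (ι j (b j)) then 1 else 0) := by
    intro b
    rw [codeg, Finset.card_filter]
  simp_rw [h1]
  rw [Finset.sum_comm]
  have h2 : ∀ v : V, ∑ b ∈ univ.filter (fun b : Fin s → Fin N => b j0 = x0),
      (if ∀ j, R v (ι j (b j)) then 1 else 0) ≤ (if R (ι j0 x0) v then D ^ (s - 1) else 0) := by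
    intro v
    by_cases hv : R (ι j0 x0) v
    · rw [if_pos hv]
      refine le_trans (le_of_eq ?_) (cnt_star R ι hι D hD v j0 x0)
      rw [← Finset.card_filter, Finset.filter_filter]
    · rw [if_neg hv]
      apply le_of_eq
      apply Finset.sum_eq_zero
      intro b hb
      rw [mem_filter] at hb
      rw [if_neg]
      intro hall
      apply hv
      have h3 := hall j0
      rw [hb.2] at h3
      exact hR _ _ h3
  refine (Finset.sum_le_sum (fun v _ => h2 v)).trans ?_
  rw [← Finset.sum_filter, Finset.sum_const, smul_eq_mul]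
  calc (univ.filter (fun v => R (ι j0 x0) v)).card * D ^ (s - 1) ≤ D * D ^ (s - 1) :=
        Nat.mul_le_mul_right _ (hD _)
    _ = D ^ s := by
        rw [← pow_succ']
        congr 1
        omega

open Classical in
/-- few tuples of large codegree -/
lemma cnt_codeg (hs : 1 ≤ s) (R : V → V → Prop) (hR : ∀ u v, R u v → R v u)
    (ι : Fin s → Fin N → V)
    (hι : ∀ j x j' x', ι j x = ι j' x' → j = j' ∧ x = x') (D κ : ℕ)
    (hD : ∀ u, (univ.filter (fun v => R u v)).card ≤ D) (j0 : Fin s) (x0 : Fin N) :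
    (κ + 1) * (univ.filter (fun b : Fin s → Fin N => b j0 = x0 ∧ κ < codeg R ι b)).card
      ≤ D ^ s := by
  refine le_trans ?_ (cnt_codeg_sum hs R hR ι hι D hD j0 x0)
  have h1 : univ.filter (fun b : Fin s → Fin N => b j0 = x0 ∧ κ < codeg R ι b) ⊆
      univ.filter (fun b : Fin s → Fin N => b j0 = x0) := by
    intro b hb
    rw [mem_filter] at hb ⊢
    exact ⟨mem_univ _, hb.2.1⟩
  refine le_trans ?_ (Finset.sum_le_sum_of_subset h1)
  rw [mul_comm, ← smul_eq_mul, ← Finset.sum_const]
  apply Finset.sum_le_sum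
  intro b hb
  rw [mem_filter] at hb
  exact hb.2.2

open Classical in
/-- few completely joined pairs -/
lemma cnt_two (hs : 1 ≤ s) (R : V → V → Prop) (ι : Fin s → Fin N → V)
    (hι : ∀ j x j' x', ι j x = ι j' x' → j = j' ∧ x = x') (D κ : ℕ)
    (hD : ∀ u, (univ.filter (fun v => R u v)).card ≤ D) (j0 : Fin s) (x0 : Fin N) :
    (univ.filter (fun q : (Fin s → Fin N) × (Fin s → Fin N) =>
      q.1 j0 = x0 ∧ codeg R ι q.2 ≤ κ ∧ ∀ j k, R (ι j (q.1 j)) (ι k (q.2 k)))).card
      ≤ κ ^ (s - 1) * D ^ s := by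
  set T := univ.filter (fun q : (Fin s → Fin N) × (Fin s → Fin N) =>
      q.1 j0 = x0 ∧ codeg R ι q.2 ≤ κ ∧ ∀ j k, R (ι j (q.1 j)) (ι k (q.2 k))) with hT
  have h1 : T.card ≤ κ ^ (s - 1) * (T.image Prod.snd).card := by
    apply Finset.card_le_mul_card_image
    intro b' hb'
    obtain ⟨q0, hq0, hq0b⟩ := Finset.mem_image.1 hb'
    rw [hT, mem_filter] at hq0
    have hcod : codeg R ι b' ≤ κ := by
      rw [← hq0b]
      exact hq0.2.2.1
    have h2 := cnt_pi j0 x0
      (fun j => univ.filter (fun y : Fin N => ∀ k, R (ι j y) (ι k (b' k)))) κ (by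
        intro j
        refine le_trans ?_ hcod
        rw [codeg]
        apply Finset.card_le_card_of_injOn (fun y => ι j y)
        · intro y hy
          have hy' := (mem_filter.1 (mem_coe.1 hy)).2
          exact mem_coe.2 (mem_filter.2 ⟨mem_univ _, hy'⟩)
        · intro y _ y' _ h
          exact (hι _ _ _ _ h).2)
    refine le_trans ?_ h2
    apply Finset.card_le_card_of_injOn Prod.fst
    · intro q hq
      have hq' := mem_filter.1 (mem_coe.1 hq)
      rw [hT, mem_filter] at hq'
      apply mem_coe.2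
      rw [mem_filter]
      refine ⟨mem_univ _, hq'.1.2.1, ?_⟩
      intro j
      rw [mem_filter]
      refine ⟨mem_univ _, fun k => ?_⟩
      rw [← hq'.2]
      exact hq'.1.2.2.2 j k
    · intro q hq q' hq' h
      have h3 := (mem_filter.1 (mem_coe.1 hq)).2
      have h4 := (mem_filter.1 (mem_coe.1 hq')).2
      exact Prod.ext h (by rw [h3, h4])
  refine h1.trans ?_
  apply Nat.mul_le_mul_left
  have h5 : T.image Prod.snd ⊆
      Fintype.piFinset (fun k => univ.filter (fun y : Fin N => R (ι j0 x0) (ι k y))) := by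
    intro b' hb'
    obtain ⟨q0, hq0, hq0b⟩ := Finset.mem_image.1 hb'
    rw [hT, mem_filter] at hq0
    rw [Fintype.mem_piFinset]
    intro k
    rw [mem_filter]
    refine ⟨mem_univ _, ?_⟩
    have h6 := hq0.2.2.2 j0 k
    rw [hq0.2.1, hq0b] at h6
    exact h6
  refine (Finset.card_le_card h5).trans ?_
  rw [Fintype.card_piFinset]
  calc ∏ k : Fin s, (univ.filter (fun y : Fin N => R (ι j0 x0) (ι k y))).card
      ≤ ∏ _k : Fin s, D := by
        apply Finset.prod_le_prod'
        intro k _
        exact cnt_row R ι hι D hD _ k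
    _ = D ^ s := by
        rw [Finset.prod_const, Finset.card_univ, Fintype.card_fin]

end

end Vale.Agent.P060
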