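import Mathlib

/-! A counting form of the lopsided local lemma. -/

namespace Vale.Agent.P060

open Finset

section
variable {Ω I : Type*} [Fintype Ω] [DecidableEq Ω] [Fintype I] [DecidableEq I]

/-- points avoiding the events in `S` -/
def av (A : I → Finset Ω) (S : Finset I) : Finset Ω := univ.filter (fun x => ∀ i ∈ S, x ∉ A i)

lemma av_mono (A : I → Finset Ω) {S T : Finset I} (h : S ⊆ T) : av A T ⊆ av A S := by
  intro x hx
  rw [av, mem_filter] at hx ⊢
  exact ⟨mem_univ _, fun i hi => hx.2 i (h hi)⟩

theorem lll_aux (A : I → Finset Ω) (Γ : I → Finset I) (p : I → ℝ) (hp : ∀ i, 0 ≤ p i)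
    (hlop : ∀ i, ∀ S : Finset I, Disjoint S (Γ i) →
      (((A i) ∩ av A S).card : ℝ) ≤ p i * ((av A S).card : ℝ))
    (hsum : ∀ i, ∑ j ∈ Γ i, p j ≤ 1 / 4) :
    ∀ (n : ℕ) (S : Finset I), S.card = n → ∀ i,
      (((A i) ∩ av A S).card : ℝ) ≤ 2 * p i * ((av A S).card : ℝ) := by
  intro n
  induction n using Nat.strong_induction_on with
  | _ n ih =>
    intro S hS i
    set S1 := S.filter (fun j => j ∈ Γ i) with hS1
    set S2 := S.filter (fun j => j ∉ Γ i) with hS2
    have hdis : Disjoint S2 (Γ i) := by
      rw [Finset.disjoint_left]
      intro j hj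
      rw [hS2, mem_filter] at hj
      exact hj.2
    have hc : (0 : ℝ) ≤ ((av A S).card : ℝ) := by positivity
    by_cases h1 : S1 = ∅
    · have h2 : S2 = S := by
        rw [hS2, Finset.filter_eq_self]
        intro j hj hjΓ
        have : j ∈ S1 := by
          rw [hS1, mem_filter]
          exact ⟨hj, hjΓ⟩
        rw [h1] at this
        exact absurd this (Finset.notMem_empty j)
      rw [h2] at hdis
      have h3 := hlop i S hdis
      have h4 : 0 ≤ p i * ((av A S).card : ℝ) := mul_nonneg (hp i) hc
      linarith
    · have hlt : S2.card < n := by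
        rw [← hS]
        apply Finset.card_lt_card
        rw [Finset.ssubset_iff_subset_ne]
        refine ⟨Finset.filter_subset _ _, ?_⟩
        intro h2
        obtain ⟨j, hj⟩ := Finset.nonempty_iff_ne_empty.2 h1
        rw [hS1, mem_filter] at hj
        have : j ∈ S2 := by
          rw [h2]
          exact hj.1
        rw [hS2, mem_filter] at this
        exact this.2 hj.2
      have h3 := hlop i S2 hdis
      have h4 : (((A i) ∩ av A S).card : ℝ) ≤ (((A i) ∩ av A S2).card : ℝ) := by
        exact_mod_cast Finset.card_le_card
          (Finset.inter_subset_inter_left (av_mono A (Finset.filter_subset _ _)))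
      -- lower bound for av A S
      have h5 : (av A S2).card ≤ (av A S).card + ∑ j ∈ S1, ((A j) ∩ av A S2).card := by
        have h6 : av A S2 ⊆ av A S ∪ S1.biUnion (fun j => (A j) ∩ av A S2) := by
          intro x hx
          rw [mem_union]
          by_cases h7 : x ∈ av A S
          · exact Or.inl h7
          · right
            rw [av, mem_filter] at h7
            push Not at h7
            obtain ⟨j, hj, hxj⟩ := h7 (mem_univ x)
            rw [mem_biUnion]
            refine ⟨j, ?_, mem_inter.2 ⟨hxj, hx⟩⟩
            rw [hS1, mem_filter]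
            refine ⟨hj, ?_⟩
            by_contra hjΓ
            rw [av, mem_filter] at hx
            exact hx.2 j (by rw [hS2, mem_filter]; exact ⟨hj, hjΓ⟩) hxj
        calc (av A S2).card ≤ (av A S ∪ S1.biUnion (fun j => (A j) ∩ av A S2)).card :=
              Finset.card_le_card h6
          _ ≤ (av A S).card + (S1.biUnion (fun j => (A j) ∩ av A S2)).card :=
              Finset.card_union_le _ _
          _ ≤ _ := by
              gcongr
              exact Finset.card_biUnion_le
      have h6 : ((av A S2).card : ℝ) ≤ (av A S).card + ∑ j ∈ S1, (((A j) ∩ av A S2).card : ℝ) := by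
        exact_mod_cast h5
      have h7 : ∑ j ∈ S1, (((A j) ∩ av A S2).card : ℝ) ≤ 1 / 2 * ((av A S2).card : ℝ) := by
        calc ∑ j ∈ S1, (((A j) ∩ av A S2).card : ℝ)
            ≤ ∑ j ∈ S1, 2 * p j * ((av A S2).card : ℝ) := by
              apply Finset.sum_le_sum
              intro j _
              exact ih _ hlt S2 rfl j
          _ = 2 * (∑ j ∈ S1, p j) * ((av A S2).card : ℝ) := by
              rw [← Finset.sum_mul, ← Finset.mul_sum]
          _ ≤ 2 * (1 / 4) * ((av A S2).card : ℝ) := by
              gcongr
              refine le_trans ?_ (hsum i)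
              apply Finset.sum_le_sum_of_subset_of_nonneg
              · intro j hj
                rw [hS1, mem_filter] at hj
                exact hj.2
              · intro j _ _
                exact hp j
          _ = _ := by ring
      have h8 : ((av A S2).card : ℝ) ≤ 2 * ((av A S).card : ℝ) := by linarith
      calc (((A i) ∩ av A S).card : ℝ) ≤ p i * ((av A S2).card : ℝ) := h4.trans h3
        _ ≤ p i * (2 * ((av A S).card : ℝ)) := by
            gcongr
            exact hp i
        _ = _ := by ring

/-- lopsided local lemma -/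
theorem lll [Nonempty Ω] (A : I → Finset Ω) (Γ : I → Finset I) (p : I → ℝ) (hp : ∀ i, 0 ≤ p i)
    (hp2 : ∀ i, p i < 1 / 2)
    (hlop : ∀ i, ∀ S : Finset I, Disjoint S (Γ i) →
      (((A i) ∩ av A S).card : ℝ) ≤ p i * ((av A S).card : ℝ))
    (hsum : ∀ i, ∑ j ∈ Γ i, p j ≤ 1 / 4) : ∃ x : Ω, ∀ i, x ∉ A i := by
  have h1 := lll_aux A Γ p hp hlop hsum
  have h2 : ∀ S : Finset I, 0 < (av A S).card := by
    intro S
    induction S using Finset.induction_on with
    | empty =>
      have : av A ∅ = univ := by
        rw [av, Finset.filter_eq_self]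
        intro x _ i hi
        exact absurd hi (Finset.notMem_empty i)
      rw [this, Finset.card_univ]
      exact Fintype.card_pos
    | insert i S hi ih =>
      have h3 := h1 _ S rfl i
      have h4 : (av A S).card ≤ (av A (insert i S)).card + ((A i) ∩ av A S).card := by
        have h5 : av A S ⊆ av A (insert i S) ∪ ((A i) ∩ av A S) := by
          intro x hx
          rw [mem_union]
          by_cases h6 : x ∈ A i
          · exact Or.inr (mem_inter.2 ⟨h6, hx⟩)
          · left
            rw [av, mem_filter] at hx ⊢
            refine ⟨mem_univ _, ?_⟩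
            intro j hj
            rcases Finset.mem_insert.1 hj with rfl | hj'
            · exact h6
            · exact hx.2 j hj'
        exact (Finset.card_le_card h5).trans (Finset.card_union_le _ _)
      have h5 : ((av A S).card : ℝ) ≤ (av A (insert i S)).card + (((A i) ∩ av A S).card : ℝ) := by
        exact_mod_cast h4
      have h6 : (0 : ℝ) < (av A S).card := by exact_mod_cast ih
      have h7 : (0 : ℝ) < ((av A (insert i S)).card : ℝ) := by
        have h8 := hp2 i
        nlinarith
      exact_mod_cast h7
  obtain ⟨x, hx⟩ := Finset.card_pos.1 (h2 univ)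
  rw [av, mem_filter] at hx
  exact ⟨x, fun i => hx.2 i (mem_univ i)⟩

end

end Vale.Agent.P060
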