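import Mathlib

/-! Lopsided dependency for families of random permutations. -/

namespace Vale.Agent.P060

open Finset

/-- a permutation carrying `f` to `g` which moves the other points only into the range of `f` -/
theorem exists_perm {n : ℕ} {X : Type*} [Fintype X] [DecidableEq X] (f g : Fin n ↪ X) :
    ∃ σ : Equiv.Perm X, (∀ t, σ (f t) = g t) ∧
      ∀ x, x ∉ Set.range f → σ x = x ∨ σ x ∈ Set.range f := by
  classical
  set S : Set X := Set.range f ∪ Set.range g with hS
  let uf : Fin n → {x : S // x.1 ∈ Set.range f} :=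
    fun t => ⟨⟨f t, Or.inl ⟨t, rfl⟩⟩, ⟨t, rfl⟩⟩
  let ug : Fin n → {x : S // x.1 ∈ Set.range g} :=
    fun t => ⟨⟨g t, Or.inr ⟨t, rfl⟩⟩, ⟨t, rfl⟩⟩
  have huf : Function.Bijective uf := by
    constructor
    · intro t t' h
      have h1 : (uf t).1.1 = (uf t').1.1 := by rw [h]
      exact f.injective h1
    · rintro ⟨⟨x, hx⟩, ⟨t, ht⟩⟩
      refine ⟨t, ?_⟩
      apply Subtype.ext
      apply Subtype.ext
      exact ht
  have hug : Function.Bijective ug := by
    constructor
    · intro t t' h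
      have h1 : (ug t).1.1 = (ug t').1.1 := by rw [h]
      exact g.injective h1
    · rintro ⟨⟨x, hx⟩, ⟨t, ht⟩⟩
      refine ⟨t, ?_⟩
      apply Subtype.ext
      apply Subtype.ext
      exact ht
  let e : {x : S // x.1 ∈ Set.range f} ≃ {x : S // x.1 ∈ Set.range g} :=
    (Equiv.ofBijective uf huf).symm.trans (Equiv.ofBijective ug hug)
  have he : ∀ t, e (uf t) = ug t := by
    intro t
    have h1 : (Equiv.ofBijective uf huf).symm (uf t) = t :=
      Equiv.ofBijective_symm_apply_apply uf huf t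
    simp only [e, Equiv.trans_apply, h1]
    rfl
  let τ : Equiv.Perm S := e.extendSubtype
  refine ⟨Equiv.Perm.ofSubtype τ, ?_, ?_⟩
  · intro t
    have hm : f t ∈ S := Or.inl ⟨t, rfl⟩
    rw [Equiv.Perm.ofSubtype_apply_of_mem τ hm]
    have h1 : τ ⟨f t, hm⟩ = (e (uf t)).1 :=
      Equiv.extendSubtype_apply_of_mem e ⟨f t, hm⟩ ⟨t, rfl⟩
    rw [h1, he]
  · intro x hx
    by_cases hxS : x ∈ S
    · right
      rw [Equiv.Perm.ofSubtype_apply_of_mem τ hxS]
      have h1 : ¬ ((τ ⟨x, hxS⟩).1 ∈ Set.range g) :=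
        Equiv.extendSubtype_not_mem e ⟨x, hxS⟩ hx
      rcases (τ ⟨x, hxS⟩).2 with h2 | h2
      · exact h2
      · exact absurd h2 h1
    · left
      exact Equiv.Perm.ofSubtype_apply_of_not_mem τ hxS

/-- the families of permutations with prescribed values on the rows `a` -/
def cyl {s N q : ℕ} (a : Fin q ↪ Fin N) (f : Fin s → (Fin q ↪ Fin N)) :
    Finset (Fin s → Equiv.Perm (Fin N)) :=
  univ.filter (fun π => ∀ j t, π j (a t) = f j t)

lemma mem_cyl {s N q : ℕ} {a : Fin q ↪ Fin N} {f : Fin s → (Fin q ↪ Fin N)}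
    {π : Fin s → Equiv.Perm (Fin N)} : π ∈ cyl a f ↔ ∀ j t, π j (a t) = f j t := by
  rw [cyl, mem_filter]
  exact ⟨fun h => h.2, fun h => ⟨mem_univ _, h⟩⟩

lemma lop_aux {s N q : ℕ} (a : Fin q ↪ Fin N) (f g : Fin s → (Fin q ↪ Fin N))
    (B : Finset (Fin s → Equiv.Perm (Fin N)))
    (hB : ∀ π ∈ B, (∀ j t, π j (a t) = f j t) → ∀ π' : Fin s → Equiv.Perm (Fin N),
      (∀ j x, x ∉ Set.range a → π' j x = π j x ∨ π' j x ∈ Set.range (f j)) → π' ∈ B) :
    (cyl a f ∩ B).card ≤ (cyl a g ∩ B).card := by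
  classical
  choose σ hσ1 hσ2 using fun j => exists_perm (f j) (g j)
  apply Finset.card_le_card_of_injOn (fun π => fun j => (π j).trans (σ j))
  · intro π hπ
    have hπ' := mem_inter.1 (mem_coe.1 hπ)
    have h1 := mem_cyl.1 hπ'.1
    apply mem_coe.2
    apply mem_inter.2
    constructor
    · apply mem_cyl.2
      intro j t
      change σ j (π j (a t)) = g j t
      rw [h1, hσ1]
    · apply hB π hπ'.2 h1
      intro j x hx
      change σ j (π j x) = π j x ∨ σ j (π j x) ∈ Set.range (f j)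
      apply hσ2 j
      rintro ⟨t, ht⟩
      rw [← h1 j t] at ht
      exact hx ⟨t, (π j).injective ht⟩
  · intro π _ π' _ h
    funext j
    have h1 : (π j).trans (σ j) = (π' j).trans (σ j) := congrFun h j
    apply Equiv.ext
    intro x
    have h2 : σ j (π j x) = σ j (π' j x) := by
      have := congrArg (fun e : Equiv.Perm (Fin N) => e x) h1
      exact this
    exact (σ j).injective h2

/-- lopsided dependency of permutation events -/
theorem lop {s N q : ℕ} (a : Fin q ↪ Fin N) (f : Fin s → (Fin q ↪ Fin N))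
    (B : Finset (Fin s → Equiv.Perm (Fin N)))
    (hB : ∀ π ∈ B, (∀ j t, π j (a t) = f j t) → ∀ π' : Fin s → Equiv.Perm (Fin N),
      (∀ j x, x ∉ Set.range a → π' j x = π j x ∨ π' j x ∈ Set.range (f j)) → π' ∈ B) :
    (cyl a f ∩ B).card * (N.descFactorial q) ^ s ≤ B.card := by
  classical
  have h1 : (univ : Finset (Fin s → (Fin q ↪ Fin N))).card = (N.descFactorial q) ^ s := by
    rw [Finset.card_univ, Fintype.card_fun, Fintype.card_embedding_eq, Fintype.card_fin,
      Fintype.card_fin, Fintype.card_fin]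
  have h2 : ∑ g : Fin s → (Fin q ↪ Fin N), (cyl a f ∩ B).card
      ≤ ∑ g : Fin s → (Fin q ↪ Fin N), (cyl a g ∩ B).card :=
    Finset.sum_le_sum (fun g _ => lop_aux a f g B hB)
  rw [Finset.sum_const, h1, smul_eq_mul] at h2
  have h3 : ∑ g : Fin s → (Fin q ↪ Fin N), (cyl a g ∩ B).card
      = ((univ : Finset (Fin s → (Fin q ↪ Fin N))).biUnion (fun g => cyl a g ∩ B)).card := by
    rw [Finset.card_biUnion]
    intro g _ g' _ hgg
    rw [Function.onFun, Finset.disjoint_left]
    intro π hπ hπ'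
    apply hgg
    funext j
    apply DFunLike.ext
    intro t
    have h4 := mem_cyl.1 (mem_inter.1 hπ).1 j t
    have h5 := mem_cyl.1 (mem_inter.1 hπ').1 j t
    rw [← h4, ← h5]
  rw [h3] at h2
  rw [mul_comm]
  refine h2.trans (Finset.card_le_card ?_)
  intro π hπ
  obtain ⟨g, _, hg⟩ := mem_biUnion.1 hπ
  exact (mem_inter.1 hg).2

end Vale.Agent.P060
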