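import Mathlib
import Vale.Agent.P060.LLL
import Vale.Agent.P060.Perm

/-! Families of permutations avoiding bad tuples and bad pairs of tuples. -/

namespace Vale.Agent.P060

open Finset

theorem mem_av {Ω I : Type*} [Fintype Ω] [DecidableEq Ω] [Fintype I] [DecidableEq I]
    {A : I → Finset Ω} {S : Finset I} {x : Ω} : x ∈ av A S ↔ ∀ i ∈ S, x ∉ A i := by
  rw [av, mem_filter]
  exact ⟨fun h => h.2, fun h => ⟨mem_univ _, h⟩⟩

section
variable {s N : ℕ}

/-- index type of the bad events -/
abbrev Idx (s N : ℕ) : Type :=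
  (Fin N × (Fin s → Fin N)) ⊕ ((Fin N × Fin N) × ((Fin s → Fin N) × (Fin s → Fin N)))

/-- the constraint of an event -/
def hold : Idx s N → (Fin s → Equiv.Perm (Fin N)) → Prop
  | Sum.inl (a, b), π => ∀ j, π j a = b j
  | Sum.inr ((a, a'), (b, b')), π => (∀ j, π j a = b j) ∧ (∀ j, π j a' = b' j)

def rows : Idx s N → Finset (Fin N)
  | Sum.inl (a, _) => {a}
  | Sum.inr ((a, a'), _) => {a, a'}

def vals : Idx s N → Finset (Fin s × Fin N)
  | Sum.inl (_, b) => univ.image (fun j => (j, b j))
  | Sum.inr (_, (b, b')) => univ.image (fun j => (j, b j)) ∪ univ.image (fun j => (j, b' j))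

def badI (Bad1 : (Fin s → Fin N) → Prop) (Bad2 : (Fin s → Fin N) → (Fin s → Fin N) → Prop) :
    Idx s N → Prop
  | Sum.inl (_, b) => Bad1 b
  | Sum.inr ((a, a'), (b, b')) => a ≠ a' ∧ (∀ j, b j ≠ b' j) ∧ Bad2 b b'

lemma hold_transfer (R : Finset (Fin N)) (V : Finset (Fin s × Fin N)) (i : Idx s N)
    (hR : Disjoint R (rows i)) (hV : Disjoint V (vals i))
    (π π' : Fin s → Equiv.Perm (Fin N))
    (h : ∀ j x, x ∉ R → π' j x = π j x ∨ (j, π' j x) ∈ V) (hi : hold i π') : hold i π := by
  rcases i with ⟨a, b⟩ | ⟨⟨a, a'⟩, ⟨b, b'⟩⟩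
  · intro j
    have h1 : π' j a = b j := hi j
    have h2 : a ∉ R := fun h2 => Finset.disjoint_left.1 hR h2 (by simp [rows])
    rcases h j a h2 with h3 | h3
    · rw [← h3, h1]
    · rw [h1] at h3
      exact absurd (by simp [vals]) (Finset.disjoint_left.1 hV h3)
  · have ha : a ∉ R := fun h2 => Finset.disjoint_left.1 hR h2 (by simp [rows])
    have ha' : a' ∉ R := fun h2 => Finset.disjoint_left.1 hR h2 (by simp [rows])
    refine ⟨?_, ?_⟩
    · intro j
      have h1 : π' j a = b j := hi.1 j
      rcases h j a ha with h3 | h3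
      · rw [← h3, h1]
      · rw [h1] at h3
        exact absurd (by simp [vals]) (Finset.disjoint_left.1 hV h3)
    · intro j
      have h1 : π' j a' = b' j := hi.2 j
      rcases h j a' ha' with h3 | h3
      · rw [← h3, h1]
      · rw [h1] at h3
        exact absurd (by simp [vals]) (Finset.disjoint_left.1 hV h3)

lemma card_rows (i : Idx s N) : (rows i).card ≤ 2 := by
  rcases i with ⟨a, b⟩ | ⟨⟨a, a'⟩, ⟨b, b'⟩⟩
  · simp [rows]
  · exact Finset.card_le_two

lemma card_vals (i : Idx s N) : (vals i).card ≤ 2 * s := by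
  rcases i with ⟨a, b⟩ | ⟨⟨a, a'⟩, ⟨b, b'⟩⟩
  · have h1 : (vals (Sum.inl (a, b)) : Finset (Fin s × Fin N)).card ≤ s := by
      refine (Finset.card_image_le).trans ?_
      simp
    omega
  · have h1 : (univ.image (fun j => (j, b j)) : Finset (Fin s × Fin N)).card ≤ s := by
      refine (Finset.card_image_le).trans ?_
      simp
    have h2 : (univ.image (fun j => (j, b' j)) : Finset (Fin s × Fin N)).card ≤ s := by
      refine (Finset.card_image_le).trans ?_
      simp
    refine (Finset.card_union_le _ _).trans ?_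
    omega

lemma rows_nonempty (i : Idx s N) : (rows i).Nonempty := by
  rcases i with ⟨a, b⟩ | ⟨⟨a, a'⟩, ⟨b, b'⟩⟩
  · exact ⟨a, by simp [rows]⟩
  · exact ⟨a, by simp [rows]⟩

end

section
variable {s N : ℕ} (Bad1 : (Fin s → Fin N) → Prop)
  (Bad2 : (Fin s → Fin N) → (Fin s → Fin N) → Prop)

open Classical in
/-- the bad events -/
noncomputable def evA (i : Idx s N) : Finset (Fin s → Equiv.Perm (Fin N)) :=
  if badI Bad1 Bad2 i then univ.filter (fun π => hold i π) else ∅

/-- probability of the constraint -/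
noncomputable def pI : Idx s N → ℝ
  | Sum.inl _ => 1 / (N : ℝ) ^ s
  | Sum.inr _ => 1 / ((N : ℝ) * ((N : ℝ) - 1)) ^ s

open Classical in
noncomputable def pp (i : Idx s N) : ℝ := if badI Bad1 Bad2 i then pI i else 0

open Classical in
noncomputable def gam (i : Idx s N) : Finset (Idx s N) :=
  univ.filter (fun i' => ¬ (Disjoint (rows i) (rows i') ∧ Disjoint (vals i) (vals i')))

lemma pI_nonneg (hN : 2 ≤ N) (i : Idx s N) : 0 ≤ pI i := by
  have h1 : (2 : ℝ) ≤ N := by exact_mod_cast hN
  rcases i with i | i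
  · simp only [pI]
    positivity
  · simp only [pI]
    have : (0 : ℝ) ≤ (N : ℝ) - 1 := by linarith
    positivity

lemma pp_nonneg (hN : 2 ≤ N) (i : Idx s N) : 0 ≤ pp Bad1 Bad2 i := by
  rw [pp]
  split_ifs
  · exact pI_nonneg hN i
  · exact le_rfl

lemma evA_lop (hN : 2 ≤ N) (i : Idx s N) (S : Finset (Idx s N)) (hS : Disjoint S (gam i)) :
    (((evA Bad1 Bad2 i) ∩ av (evA Bad1 Bad2) S).card : ℝ)
      ≤ pp Bad1 Bad2 i * ((av (evA Bad1 Bad2) S).card : ℝ) := by
  classical
  by_cases hb : badI Bad1 Bad2 i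
  swap
  · rw [evA, pp, if_neg hb, if_neg hb]
    simp
  -- closure
  have hclos : ∀ π ∈ av (evA Bad1 Bad2) S, ∀ π' : Fin s → Equiv.Perm (Fin N),
      (∀ j x, x ∉ rows i → π' j x = π j x ∨ (j, π' j x) ∈ vals i) →
      π' ∈ av (evA Bad1 Bad2) S := by
    intro π hπ π' h
    rw [mem_av] at hπ ⊢
    intro i' hi' hmem
    have hg : i' ∉ gam i := fun h1 => Finset.disjoint_left.1 hS hi' h1
    have hg' : Disjoint (rows i) (rows i') ∧ Disjoint (vals i) (vals i') := by
      by_contra hcon
      apply hg
      rw [gam, mem_filter]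
      exact ⟨mem_univ _, hcon⟩
    apply hπ i' hi'
    by_cases hb' : badI Bad1 Bad2 i'
    · rw [evA, if_pos hb', mem_filter] at hmem ⊢
      exact ⟨mem_univ _, hold_transfer _ _ i' hg'.1 hg'.2 π π' h hmem.2⟩
    · rw [evA, if_neg hb'] at hmem
      exact absurd hmem (Finset.notMem_empty _)
  have h2N : (2 : ℝ) ≤ N := by exact_mod_cast hN
  rcases i with ⟨a, b⟩ | ⟨⟨a, a'⟩, ⟨b, b'⟩⟩
  · -- one row
    let ea : Fin 1 ↪ Fin N := ⟨fun _ => a, fun _ _ _ => Subsingleton.elim _ _⟩
    let ef : Fin s → (Fin 1 ↪ Fin N) := fun j => ⟨fun _ => b j, fun _ _ _ => Subsingleton.elim _ _⟩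
    have h1 := lop ea ef (av (evA Bad1 Bad2) S) (by
      intro π hπ _ π' h
      apply hclos π hπ π'
      intro j x hx
      have hx' : x ∉ Set.range ea := by
        rintro ⟨t, ht⟩
        apply hx
        simp only [rows, mem_singleton]
        exact ht.symm
      rcases h j x hx' with h3 | ⟨t, ht⟩
      · exact Or.inl h3
      · right
        have h4 : π' j x = b j := ht.symm
        rw [h4]
        simp [vals])
    have h2 : evA Bad1 Bad2 (Sum.inl (a, b)) = cyl ea ef := by
      ext π
      rw [evA, if_pos hb, mem_filter, mem_cyl]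
      constructor
      · intro h3 j _
        exact h3.2 j
      · intro h3
        exact ⟨mem_univ _, fun j => h3 j 0⟩
    rw [← h2, Nat.descFactorial_one] at h1
    rw [pp, if_pos hb]
    simp only [pI]
    rw [div_mul_eq_mul_div, one_mul, le_div_iff₀ (by positivity)]
    exact_mod_cast h1
  · have hb0 := hb
    simp only [badI] at hb0
    obtain ⟨haa, hbb, _⟩ := hb0
    let ea : Fin 2 ↪ Fin N := ⟨![a, a'], by
      intro t t' h
      fin_cases t <;> fin_cases t' <;> simp_all⟩
    let ef : Fin s → (Fin 2 ↪ Fin N) := fun j => ⟨![b j, b' j], by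
      have hj := hbb j
      have hj' : b' j ≠ b j := fun h => hj h.symm
      intro t t' h
      fin_cases t <;> fin_cases t' <;> simp_all⟩
    have h1 := lop ea ef (av (evA Bad1 Bad2) S) (by
      intro π hπ _ π' h
      apply hclos π hπ π'
      intro j x hx
      have hx' : x ∉ Set.range ea := by
        rintro ⟨t, ht⟩
        apply hx
        simp only [rows, mem_insert, mem_singleton]
        fin_cases t
        · left
          exact ht.symm
        · right
          exact ht.symm
      rcases h j x hx' with h3 | ⟨t, ht⟩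
      · exact Or.inl h3
      · right
        simp only [vals, mem_union, mem_image, mem_univ, true_and]
        fin_cases t
        · left
          refine ⟨j, ?_⟩
          have h4 : b j = π' j x := ht
          rw [h4]
        · right
          refine ⟨j, ?_⟩
          have h4 : b' j = π' j x := ht
          rw [h4])
    have h2 : evA Bad1 Bad2 (Sum.inr ((a, a'), (b, b'))) = cyl ea ef := by
      ext π
      rw [evA, if_pos hb, mem_filter, mem_cyl]
      constructor
      · intro h3 j t
        fin_cases t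
        · exact h3.2.1 j
        · exact h3.2.2 j
      · intro h3
        exact ⟨mem_univ _, fun j => h3 j 0, fun j => h3 j 1⟩
    have h3 : N.descFactorial 2 = N * (N - 1) := by
      rw [Nat.descFactorial_succ, Nat.descFactorial_one]
      ring
    rw [← h2, h3] at h1
    rw [pp, if_pos hb]
    simp only [pI]
    have h4 : (0 : ℝ) < (N : ℝ) - 1 := by linarith
    rw [div_mul_eq_mul_div, one_mul, le_div_iff₀ (by positivity)]
    have h5 : ((N - 1 : ℕ) : ℝ) = (N : ℝ) - 1 := by
      rw [Nat.cast_sub (by omega)]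
      simp
    rw [← h5]
    exact_mod_cast h1

end

end Vale.Agent.P060
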