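import Mathlib
import Vale.Agent.P060.Trans

/-! The transversal theorem: sums over dependency neighbourhoods. -/

namespace Vale.Agent.P060

open Finset

section
variable {s N : ℕ}

open Classical in
lemma sum_gam (p : Idx s N → ℝ) (hp : ∀ i, 0 ≤ p i) (i : Idx s N) :
    ∑ i' ∈ gam i, p i' ≤ ∑ r ∈ rows i, ∑ i', (if r ∈ rows i' then p i' else 0)
      + ∑ v ∈ vals i, ∑ i', (if v ∈ vals i' then p i' else 0) := by
  have h1 : ∑ r ∈ rows i, ∑ i', (if r ∈ rows i' then p i' else 0)
      = ∑ i', ∑ r ∈ rows i, (if r ∈ rows i' then p i' else 0) := Finset.sum_comm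
  have h2 : ∑ v ∈ vals i, ∑ i', (if v ∈ vals i' then p i' else 0)
      = ∑ i', ∑ v ∈ vals i, (if v ∈ vals i' then p i' else 0) := Finset.sum_comm
  rw [h1, h2, ← Finset.sum_add_distrib]
  have hnn : ∀ i', 0 ≤ (∑ r ∈ rows i, (if r ∈ rows i' then p i' else 0))
      + ∑ v ∈ vals i, (if v ∈ vals i' then p i' else 0) := by
    intro i'
    apply add_nonneg <;>
    · apply Finset.sum_nonneg
      intro r _
      split_ifs
      · exact hp i'
      · exact le_rfl
  refine le_trans ?_ (Finset.sum_le_sum_of_subset_of_nonneg (Finset.subset_univ (gam i))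
    (fun i' _ _ => hnn i'))
  apply Finset.sum_le_sum
  intro i' hi'
  rw [gam, mem_filter] at hi'
  have hnn1 : 0 ≤ ∑ r ∈ rows i, (if r ∈ rows i' then p i' else 0) := by
    apply Finset.sum_nonneg
    intro r _
    split_ifs
    · exact hp i'
    · exact le_rfl
  have hnn2 : 0 ≤ ∑ v ∈ vals i, (if v ∈ vals i' then p i' else 0) := by
    apply Finset.sum_nonneg
    intro r _
    split_ifs
    · exact hp i'
    · exact le_rfl
  by_cases hr : Disjoint (rows i) (rows i')
  · have hv : ¬ Disjoint (vals i) (vals i') := fun hv => hi'.2 ⟨hr, hv⟩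
    rw [Finset.not_disjoint_iff] at hv
    obtain ⟨v, hv1, hv2⟩ := hv
    have h3 : (if v ∈ vals i' then p i' else 0) ≤ ∑ v ∈ vals i, (if v ∈ vals i' then p i' else 0) := by
      apply Finset.single_le_sum (f := fun v => if v ∈ vals i' then p i' else 0) _ hv1
      intro r _
      split_ifs
      · exact hp i'
      · exact le_rfl
    rw [if_pos hv2] at h3
    linarith
  · rw [Finset.not_disjoint_iff] at hr
    obtain ⟨r, hr1, hr2⟩ := hr
    have h3 : (if r ∈ rows i' then p i' else 0) ≤ ∑ r ∈ rows i, (if r ∈ rows i' then p i' else 0) := by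
      apply Finset.single_le_sum (f := fun r => if r ∈ rows i' then p i' else 0) _ hr1
      intro r _
      split_ifs
      · exact hp i'
      · exact le_rfl
    rw [if_pos hr2] at h3
    linarith

variable (Bad1 : (Fin s → Fin N) → Prop)
  (Bad2 : (Fin s → Fin N) → (Fin s → Fin N) → Prop)

lemma pp_inl_pos (a : Fin N) (b : Fin s → Fin N) (h : Bad1 b) :
    pp Bad1 Bad2 (Sum.inl (a, b)) = 1 / (N : ℝ) ^ s := by
  rw [pp, if_pos (show badI Bad1 Bad2 (Sum.inl (a, b)) from h)]
  rfl

lemma pp_inl_neg (a : Fin N) (b : Fin s → Fin N) (h : ¬ Bad1 b) :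
    pp Bad1 Bad2 (Sum.inl (a, b)) = 0 := by
  rw [pp, if_neg (show ¬ badI Bad1 Bad2 (Sum.inl (a, b)) from h)]

lemma pp_inr_pos (a a' : Fin N) (b b' : Fin s → Fin N)
    (h : a ≠ a' ∧ (∀ j, b j ≠ b' j) ∧ Bad2 b b') :
    pp Bad1 Bad2 (Sum.inr ((a, a'), (b, b'))) = 1 / ((N : ℝ) * ((N : ℝ) - 1)) ^ s := by
  rw [pp, if_pos (show badI Bad1 Bad2 (Sum.inr ((a, a'), (b, b'))) from h)]
  rfl

lemma pp_inr_neg (a a' : Fin N) (b b' : Fin s → Fin N)
    (h : ¬ (a ≠ a' ∧ (∀ j, b j ≠ b' j) ∧ Bad2 b b')) :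
    pp Bad1 Bad2 (Sum.inr ((a, a'), (b, b'))) = 0 := by
  rw [pp, if_neg (show ¬ badI Bad1 Bad2 (Sum.inr ((a, a'), (b, b'))) from h)]

open Classical in
lemma sum_row (hN : 2 ≤ N) (r : Fin N) (C1 C2 : ℝ)
    (h1 : ((univ.filter (fun b : Fin s → Fin N => Bad1 b)).card : ℝ) ≤ C1)
    (h2 : ((univ.filter (fun q : (Fin s → Fin N) × (Fin s → Fin N) => Bad2 q.1 q.2)).card : ℝ)
      ≤ C2) :
    ∑ i' : Idx s N, (if r ∈ rows i' then pp Bad1 Bad2 i' else 0)
      ≤ C1 * (1 / (N : ℝ) ^ s) + 2 * N * (C2 * (1 / ((N : ℝ) * ((N : ℝ) - 1)) ^ s)) := by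
  have h2N : (2 : ℝ) ≤ N := by exact_mod_cast hN
  set P1 : ℝ := 1 / (N : ℝ) ^ s with hP1
  set P2 : ℝ := 1 / ((N : ℝ) * ((N : ℝ) - 1)) ^ s with hP2
  have hP1n : 0 ≤ P1 := by positivity
  have hP2n : 0 ≤ P2 := by
    have : (0 : ℝ) ≤ (N : ℝ) - 1 := by linarith
    positivity
  rw [Fintype.sum_sum_type]
  apply add_le_add
  · calc ∑ x : Fin N × (Fin s → Fin N),
          (if r ∈ rows (Sum.inl x : Idx s N) then pp Bad1 Bad2 (Sum.inl x) else 0)
        = ∑ a : Fin N, ∑ b : Fin s → Fin N, (if r = a then (if Bad1 b then P1 else 0) else 0) := by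
          rw [Fintype.sum_prod_type]
          apply Finset.sum_congr rfl
          intro a _
          apply Finset.sum_congr rfl
          intro b _
          simp only [rows, mem_singleton]
          by_cases hB : Bad1 b
          · rw [pp_inl_pos Bad1 Bad2 a b hB, if_pos hB]
          · rw [pp_inl_neg Bad1 Bad2 a b hB, if_neg hB]
      _ = ∑ b : Fin s → Fin N, (if Bad1 b then P1 else 0) := by
          rw [Finset.sum_comm]
          apply Finset.sum_congr rfl
          intro b _
          rw [Finset.sum_ite_eq]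
          simp
      _ = ((univ.filter (fun b : Fin s → Fin N => Bad1 b)).card : ℝ) * P1 := by
          rw [← Finset.sum_filter, Finset.sum_const, nsmul_eq_mul]
      _ ≤ C1 * P1 := by gcongr
  · calc ∑ x : (Fin N × Fin N) × ((Fin s → Fin N) × (Fin s → Fin N)),
          (if r ∈ rows (Sum.inr x : Idx s N) then pp Bad1 Bad2 (Sum.inr x) else 0)
        ≤ ∑ x : (Fin N × Fin N) × ((Fin s → Fin N) × (Fin s → Fin N)),
          ((if r = x.1.1 then (1 : ℝ) else 0) + (if r = x.1.2 then (1 : ℝ) else 0))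
            * (if Bad2 x.2.1 x.2.2 then P2 else 0) := by
          apply Finset.sum_le_sum
          rintro ⟨⟨a, a'⟩, ⟨b, b'⟩⟩ _
          dsimp only
          have hnn : (0 : ℝ) ≤ (if Bad2 b b' then P2 else 0) := by
            split_ifs
            · exact hP2n
            · exact le_rfl
          have h3 : pp Bad1 Bad2 (Sum.inr ((a, a'), (b, b'))) ≤ (if Bad2 b b' then P2 else 0) := by
            by_cases hB : a ≠ a' ∧ (∀ j, b j ≠ b' j) ∧ Bad2 b b'
            · rw [pp_inr_pos Bad1 Bad2 a a' b b' hB, if_pos hB.2.2]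
            · rw [pp_inr_neg Bad1 Bad2 a a' b b' hB]
              exact hnn
          by_cases hr : r ∈ rows (Sum.inr ((a, a'), (b, b')) : Idx s N)
          · rw [if_pos hr]
            simp only [rows, mem_insert, mem_singleton] at hr
            have h4 : (1 : ℝ) ≤ ((if r = a then (1 : ℝ) else 0) + (if r = a' then (1 : ℝ) else 0)) := by
              rcases hr with hr | hr
              · rw [if_pos hr]
                split_ifs <;> norm_num
              · rw [if_pos hr]
                split_ifs <;> norm_num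
            calc pp Bad1 Bad2 (Sum.inr ((a, a'), (b, b'))) ≤ 1 * (if Bad2 b b' then P2 else 0) := by
                  rw [one_mul]
                  exact h3
              _ ≤ _ := by
                  apply mul_le_mul_of_nonneg_right h4 hnn
          · rw [if_neg hr]
            apply mul_nonneg _ hnn
            apply add_nonneg <;> split_ifs <;> norm_num
      _ = (∑ x : Fin N × Fin N, ((if r = x.1 then (1 : ℝ) else 0) + (if r = x.2 then (1 : ℝ) else 0)))
          * (∑ y : (Fin s → Fin N) × (Fin s → Fin N), (if Bad2 y.1 y.2 then P2 else 0)) := by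
          rw [Finset.sum_mul_sum, Fintype.sum_prod_type]
      _ = (2 * N) * (((univ.filter (fun q : (Fin s → Fin N) × (Fin s → Fin N) =>
          Bad2 q.1 q.2)).card : ℝ) * P2) := by
          congr 1
          · rw [Finset.sum_add_distrib, Fintype.sum_prod_type, Fintype.sum_prod_type]
            have e1 : ∑ x : Fin N, ∑ _y : Fin N, (if r = x then (1 : ℝ) else 0) = N := by
              rw [Finset.sum_comm]
              simp
            have e2 : ∑ _x : Fin N, ∑ y : Fin N, (if r = y then (1 : ℝ) else 0) = N := by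
              simp
            rw [two_mul]
            exact congrArg₂ (· + ·) e1 e2
          · rw [← Finset.sum_filter, Finset.sum_const, nsmul_eq_mul]
      _ ≤ 2 * N * (C2 * P2) := by gcongr

open Classical in
lemma sum_val (hN : 2 ≤ N) (v : Fin s × Fin N) (B1 B2 : ℝ)
    (h1 : ((univ.filter (fun b : Fin s → Fin N => Bad1 b ∧ b v.1 = v.2)).card : ℝ) ≤ B1)
    (h2 : ((univ.filter (fun q : (Fin s → Fin N) × (Fin s → Fin N) =>
      Bad2 q.1 q.2 ∧ q.1 v.1 = v.2)).card : ℝ) ≤ B2)
    (h3 : ((univ.filter (fun q : (Fin s → Fin N) × (Fin s → Fin N) =>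
      Bad2 q.1 q.2 ∧ q.2 v.1 = v.2)).card : ℝ) ≤ B2) :
    ∑ i' : Idx s N, (if v ∈ vals i' then pp Bad1 Bad2 i' else 0)
      ≤ N * (B1 * (1 / (N : ℝ) ^ s))
        + (N * N) * ((2 * B2) * (1 / ((N : ℝ) * ((N : ℝ) - 1)) ^ s)) := by
  have h2N : (2 : ℝ) ≤ N := by exact_mod_cast hN
  set P1 : ℝ := 1 / (N : ℝ) ^ s with hP1
  set P2 : ℝ := 1 / ((N : ℝ) * ((N : ℝ) - 1)) ^ s with hP2
  have hP1n : 0 ≤ P1 := by positivity
  have hP2n : 0 ≤ P2 := by
    have : (0 : ℝ) ≤ (N : ℝ) - 1 := by linarith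
    positivity
  rw [Fintype.sum_sum_type]
  apply add_le_add
  · calc ∑ x : Fin N × (Fin s → Fin N),
          (if v ∈ vals (Sum.inl x : Idx s N) then pp Bad1 Bad2 (Sum.inl x) else 0)
        ≤ ∑ x : Fin N × (Fin s → Fin N), (if Bad1 x.2 ∧ x.2 v.1 = v.2 then P1 else 0) := by
          apply Finset.sum_le_sum
          rintro ⟨a, b⟩ _
          have hnn : (0 : ℝ) ≤ (if Bad1 b ∧ b v.1 = v.2 then P1 else 0) := by
            split_ifs
            · exact hP1n
            · exact le_rfl
          by_cases hv : v ∈ vals (Sum.inl (a, b) : Idx s N)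
          · rw [if_pos hv]
            simp only [vals, mem_image, mem_univ, true_and] at hv
            obtain ⟨j, hj⟩ := hv
            have h4 : b v.1 = v.2 := by
              rw [← hj]
            by_cases hB : Bad1 b
            · rw [pp_inl_pos Bad1 Bad2 a b hB, if_pos ⟨hB, h4⟩]
            · rw [pp_inl_neg Bad1 Bad2 a b hB]
              exact hnn
          · rw [if_neg hv]
            exact hnn
      _ = N * (((univ.filter (fun b : Fin s → Fin N => Bad1 b ∧ b v.1 = v.2)).card : ℝ) * P1) := by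
          have e1 : ∑ b : Fin s → Fin N, (if Bad1 b ∧ b v.1 = v.2 then P1 else 0)
              = ((univ.filter (fun b : Fin s → Fin N => Bad1 b ∧ b v.1 = v.2)).card : ℝ) * P1 := by
            rw [← Finset.sum_filter, Finset.sum_const, nsmul_eq_mul]
          rw [← e1, Fintype.sum_prod_type]
          calc ∑ x : Fin N, ∑ y : Fin s → Fin N,
              (if Bad1 (x, y).2 ∧ (x, y).2 v.1 = v.2 then P1 else 0)
              = ∑ _x : Fin N, ∑ b : Fin s → Fin N, (if Bad1 b ∧ b v.1 = v.2 then P1 else 0) := rfl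
            _ = _ := by
              rw [Finset.sum_const, Finset.card_univ, Fintype.card_fin, nsmul_eq_mul]
      _ ≤ N * (B1 * P1) := by gcongr
  · calc ∑ x : (Fin N × Fin N) × ((Fin s → Fin N) × (Fin s → Fin N)),
          (if v ∈ vals (Sum.inr x : Idx s N) then pp Bad1 Bad2 (Sum.inr x) else 0)
        ≤ ∑ x : (Fin N × Fin N) × ((Fin s → Fin N) × (Fin s → Fin N)),
          ((if Bad2 x.2.1 x.2.2 ∧ x.2.1 v.1 = v.2 then P2 else 0)
            + (if Bad2 x.2.1 x.2.2 ∧ x.2.2 v.1 = v.2 then P2 else 0)) := by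
          apply Finset.sum_le_sum
          rintro ⟨⟨a, a'⟩, ⟨b, b'⟩⟩ _
          dsimp only
          have hnn1 : (0 : ℝ) ≤ (if Bad2 b b' ∧ b v.1 = v.2 then P2 else 0) := by
            split_ifs
            · exact hP2n
            · exact le_rfl
          have hnn2 : (0 : ℝ) ≤ (if Bad2 b b' ∧ b' v.1 = v.2 then P2 else 0) := by
            split_ifs
            · exact hP2n
            · exact le_rfl
          by_cases hv : v ∈ vals (Sum.inr ((a, a'), (b, b')) : Idx s N)
          · rw [if_pos hv]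
            simp only [vals, mem_union, mem_image, mem_univ, true_and] at hv
            by_cases hB : a ≠ a' ∧ (∀ j, b j ≠ b' j) ∧ Bad2 b b'
            · rw [pp_inr_pos Bad1 Bad2 a a' b b' hB]
              rcases hv with ⟨j, hj⟩ | ⟨j, hj⟩
              · have h4 : b v.1 = v.2 := by rw [← hj]
                have h5 : (if Bad2 b b' ∧ b v.1 = v.2 then P2 else 0) = P2 := if_pos ⟨hB.2.2, h4⟩
                rw [h5]
                linarith
              · have h4 : b' v.1 = v.2 := by rw [← hj]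
                have h5 : (if Bad2 b b' ∧ b' v.1 = v.2 then P2 else 0) = P2 := if_pos ⟨hB.2.2, h4⟩
                rw [h5]
                linarith
            · rw [pp_inr_neg Bad1 Bad2 a a' b b' hB]
              linarith
          · rw [if_neg hv]
            linarith
      _ = (N * N) * ((((univ.filter (fun q : (Fin s → Fin N) × (Fin s → Fin N) =>
            Bad2 q.1 q.2 ∧ q.1 v.1 = v.2)).card : ℝ)
            + ((univ.filter (fun q : (Fin s → Fin N) × (Fin s → Fin N) =>
            Bad2 q.1 q.2 ∧ q.2 v.1 = v.2)).card : ℝ)) * P2) := by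
          have e1 : ∑ q : (Fin s → Fin N) × (Fin s → Fin N),
              ((if Bad2 q.1 q.2 ∧ q.1 v.1 = v.2 then P2 else 0)
                + (if Bad2 q.1 q.2 ∧ q.2 v.1 = v.2 then P2 else 0))
              = ((((univ.filter (fun q : (Fin s → Fin N) × (Fin s → Fin N) =>
            Bad2 q.1 q.2 ∧ q.1 v.1 = v.2)).card : ℝ)
            + ((univ.filter (fun q : (Fin s → Fin N) × (Fin s → Fin N) =>
            Bad2 q.1 q.2 ∧ q.2 v.1 = v.2)).card : ℝ)) * P2) := by
            rw [Finset.sum_add_distrib, ← Finset.sum_filter, ← Finset.sum_filter,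
              Finset.sum_const, Finset.sum_const, nsmul_eq_mul, nsmul_eq_mul]
            ring
          rw [← e1, Fintype.sum_prod_type]
          calc ∑ x : Fin N × Fin N, ∑ q : (Fin s → Fin N) × (Fin s → Fin N),
              ((if Bad2 (x, q).2.1 (x, q).2.2 ∧ (x, q).2.1 v.1 = v.2 then P2 else 0)
                + (if Bad2 (x, q).2.1 (x, q).2.2 ∧ (x, q).2.2 v.1 = v.2 then P2 else 0))
              = ∑ _x : Fin N × Fin N, ∑ q : (Fin s → Fin N) × (Fin s → Fin N),
              ((if Bad2 q.1 q.2 ∧ q.1 v.1 = v.2 then P2 else 0)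
                + (if Bad2 q.1 q.2 ∧ q.2 v.1 = v.2 then P2 else 0)) := rfl
            _ = _ := by
              rw [Finset.sum_const, Finset.card_univ, Fintype.card_prod, Fintype.card_fin,
                nsmul_eq_mul]
              push_cast
              ring
      _ ≤ (N * N) * ((2 * B2) * P2) := by
          gcongr
          linarith

open Classical in
/-- Transversal theorem: permutations avoiding a sparse set of bad tuples and a sparse set of
bad pairs of tuples. -/
theorem transversal (hs : 1 ≤ s) (hN : 2 ≤ N) (B1 B2 : ℝ)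
    (h1 : ∀ (j : Fin s) (x : Fin N),
      ((univ.filter (fun b : Fin s → Fin N => Bad1 b ∧ b j = x)).card : ℝ) ≤ B1)
    (h2 : ∀ (j : Fin s) (x : Fin N), ((univ.filter (fun q : (Fin s → Fin N) × (Fin s → Fin N) =>
      Bad2 q.1 q.2 ∧ q.1 j = x)).card : ℝ) ≤ B2)
    (h3 : ∀ (j : Fin s) (x : Fin N), ((univ.filter (fun q : (Fin s → Fin N) × (Fin s → Fin N) =>
      Bad2 q.1 q.2 ∧ q.2 j = x)).card : ℝ) ≤ B2)
    (hsum : 2 * ((s : ℝ) + 1) * (N * (B1 * (1 / (N : ℝ) ^ s))
        + (N * N) * ((2 * B2) * (1 / ((N : ℝ) * ((N : ℝ) - 1)) ^ s))) ≤ 1 / 4) :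
    ∃ π : Fin s → Equiv.Perm (Fin N), (∀ a, ¬ Bad1 (fun j => π j a)) ∧
      ∀ a a', a ≠ a' → ¬ Bad2 (fun j => π j a) (fun j => π j a') := by
  have h2N : (2 : ℝ) ≤ N := by exact_mod_cast hN
  set F : ℝ := N * (B1 * (1 / (N : ℝ) ^ s))
        + (N * N) * ((2 * B2) * (1 / ((N : ℝ) * ((N : ℝ) - 1)) ^ s)) with hF
  let j0 : Fin s := ⟨0, by omega⟩
  have hc1 : ((univ.filter (fun b : Fin s → Fin N => Bad1 b)).card : ℝ) ≤ N * B1 := by
    have h4 : (univ.filter (fun b : Fin s → Fin N => Bad1 b)).card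
        = ∑ x : Fin N, (univ.filter (fun b : Fin s → Fin N => Bad1 b ∧ b j0 = x)).card := by
      rw [Finset.card_eq_sum_card_fiberwise (f := fun b : Fin s → Fin N => b j0)
        (t := (univ : Finset (Fin N)))]
      · apply Finset.sum_congr rfl
        intro x _
        rw [Finset.filter_filter]
      · intro b _
        exact mem_coe.2 (mem_univ _)
    rw [h4]
    push_cast
    calc ∑ x : Fin N, ((univ.filter (fun b : Fin s → Fin N => Bad1 b ∧ b j0 = x)).card : ℝ)
        ≤ ∑ x : Fin N, B1 := Finset.sum_le_sum (fun x _ => h1 j0 x)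
      _ = N * B1 := by simp
  have hc2 : ((univ.filter (fun q : (Fin s → Fin N) × (Fin s → Fin N) => Bad2 q.1 q.2)).card : ℝ)
      ≤ N * B2 := by
    have h4 : (univ.filter (fun q : (Fin s → Fin N) × (Fin s → Fin N) => Bad2 q.1 q.2)).card
        = ∑ x : Fin N, (univ.filter (fun q : (Fin s → Fin N) × (Fin s → Fin N) =>
          Bad2 q.1 q.2 ∧ q.1 j0 = x)).card := by
      rw [Finset.card_eq_sum_card_fiberwise (f := fun q : (Fin s → Fin N) × (Fin s → Fin N) => q.1 j0)
        (t := (univ : Finset (Fin N)))]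
      · apply Finset.sum_congr rfl
        intro x _
        rw [Finset.filter_filter]
      · intro b _
        exact mem_coe.2 (mem_univ _)
    rw [h4]
    push_cast
    calc ∑ x : Fin N, ((univ.filter (fun q : (Fin s → Fin N) × (Fin s → Fin N) =>
          Bad2 q.1 q.2 ∧ q.1 j0 = x)).card : ℝ)
        ≤ ∑ x : Fin N, B2 := Finset.sum_le_sum (fun x _ => h2 j0 x)
      _ = N * B2 := by simp
  have hP2n : 0 ≤ 1 / ((N : ℝ) * ((N : ℝ) - 1)) ^ s := by
    have : (0 : ℝ) ≤ (N : ℝ) - 1 := by linarith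
    positivity
  have hrow : ∀ r : Fin N, ∑ i' : Idx s N, (if r ∈ rows i' then pp Bad1 Bad2 i' else 0) ≤ F := by
    intro r
    refine (sum_row Bad1 Bad2 hN r (N * B1) (N * B2) hc1 hc2).trans (le_of_eq ?_)
    rw [hF]
    ring
  have hval : ∀ v : Fin s × Fin N, ∑ i' : Idx s N, (if v ∈ vals i' then pp Bad1 Bad2 i' else 0)
      ≤ F := by
    intro v
    exact sum_val Bad1 Bad2 hN v B1 B2 (h1 v.1 v.2) (h2 v.1 v.2) (h3 v.1 v.2)
  have hF0 : 0 ≤ F := by
    have h4 := hrow ⟨0, by omega⟩
    refine le_trans ?_ h4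
    apply Finset.sum_nonneg
    intro i _
    split_ifs
    · exact pp_nonneg Bad1 Bad2 hN i
    · exact le_rfl
  have hG : ∀ i : Idx s N, ∑ i' ∈ gam i, pp Bad1 Bad2 i' ≤ 1 / 4 := by
    intro i
    refine (sum_gam (pp Bad1 Bad2) (pp_nonneg Bad1 Bad2 hN) i).trans ?_
    have h4 : ∑ r ∈ rows i, ∑ i', (if r ∈ rows i' then pp Bad1 Bad2 i' else 0) ≤ 2 * F := by
      calc ∑ r ∈ rows i, ∑ i', (if r ∈ rows i' then pp Bad1 Bad2 i' else 0)
          ≤ ∑ r ∈ rows i, F := Finset.sum_le_sum (fun r _ => hrow r)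
        _ = (rows i).card * F := by rw [Finset.sum_const, nsmul_eq_mul]
        _ ≤ 2 * F := by
            gcongr
            exact_mod_cast card_rows i
    have h5 : ∑ v ∈ vals i, ∑ i', (if v ∈ vals i' then pp Bad1 Bad2 i' else 0) ≤ (2 * s) * F := by
      calc ∑ v ∈ vals i, ∑ i', (if v ∈ vals i' then pp Bad1 Bad2 i' else 0)
          ≤ ∑ v ∈ vals i, F := Finset.sum_le_sum (fun v _ => hval v)
        _ = (vals i).card * F := by rw [Finset.sum_const, nsmul_eq_mul]
        _ ≤ (2 * s) * F := by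
            gcongr
            exact_mod_cast card_vals i
    linarith
  have hhalf : ∀ i : Idx s N, pp Bad1 Bad2 i < 1 / 2 := by
    intro i
    have h4 : pp Bad1 Bad2 i ≤ ∑ i' ∈ gam i, pp Bad1 Bad2 i' := by
      apply Finset.single_le_sum (f := fun i' => pp Bad1 Bad2 i')
      · intro i' _
        exact pp_nonneg Bad1 Bad2 hN i'
      · rw [gam, mem_filter]
        refine ⟨mem_univ _, ?_⟩
        rintro ⟨h5, _⟩
        obtain ⟨r, hr⟩ := rows_nonempty i
        exact Finset.disjoint_left.1 h5 hr hr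
    have h5 := hG i
    linarith
  obtain ⟨π, hπ⟩ := lll (evA Bad1 Bad2) gam (pp Bad1 Bad2) (pp_nonneg Bad1 Bad2 hN) hhalf
    (fun i S hS => by
      have h4 := evA_lop Bad1 Bad2 hN i S hS
      convert h4) hG
  refine ⟨π, ?_, ?_⟩
  · intro a hB
    have h4 := hπ (Sum.inl (a, fun j => π j a))
    apply h4
    rw [evA, if_pos (show badI Bad1 Bad2 (Sum.inl (a, fun j => π j a)) from hB), mem_filter]
    exact ⟨mem_univ _, fun j => rfl⟩
  · intro a a' haa hB
    have h4 := hπ (Sum.inr ((a, a'), (fun j => π j a, fun j => π j a')))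
    apply h4
    rw [evA, if_pos (show badI Bad1 Bad2 (Sum.inr ((a, a'), (fun j => π j a, fun j => π j a')))
      from ⟨haa, fun j h => haa ((π j).injective h), hB⟩), mem_filter]
    exact ⟨mem_univ _, fun j => rfl, fun j => rfl⟩

end

end Vale.Agent.P060
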