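import Mathlib
import Vale.Agent.P060.Trans2
import Vale.Agent.P060.Cnt

/-! The combinatorial core: parallel transversals of a vertex partition. -/

namespace Vale.Agent.P060

open Finset

/-- the small constant -/
noncomputable def del (r : ℕ) : ℝ :=
  1 / (12 * ((r : ℝ) + 3) * (((r : ℝ) + 2) ^ 2 + 1 + 2 ^ (r + 3) * (24 * ((r : ℝ) + 3)) ^ (r + 1)))

lemma del_pos (r : ℕ) : 0 < del r := by
  unfold del
  positivity

lemma del_le (r : ℕ) : del r ≤ 1 := by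
  unfold del
  rw [div_le_one (by positivity)]
  have h1 : (1 : ℝ) ≤ 12 * ((r : ℝ) + 3) := by
    have : (0 : ℝ) ≤ r := by positivity
    linarith
  have h2 : (1 : ℝ) ≤ ((r : ℝ) + 2) ^ 2 + 1 + 2 ^ (r + 3) * (24 * ((r : ℝ) + 3)) ^ (r + 1) := by
    have : (0 : ℝ) ≤ ((r : ℝ) + 2) ^ 2 + 2 ^ (r + 3) * (24 * ((r : ℝ) + 3)) ^ (r + 1) := by
      positivity
    linarith
  nlinarith

lemma num_bound (r N D : ℕ) (hN : 2 ≤ N) (h1 : (D : ℝ) ≤ del r * N)
    (h2 : (D : ℝ) ^ ((r + 2) * (r + 2)) ≤ del r * ((N : ℝ) ^ (r + 1)) ^ (r + 3)) (κ : ℕ)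
    (hκ : κ = 24 * (r + 3) * D ^ (r + 2) / N ^ (r + 1)) :
    2 * (((r + 2 : ℕ) : ℝ) + 1) *
      (N * ((((r + 2 : ℕ) : ℝ) ^ 2 * (D * N ^ r) + (D : ℝ) ^ (r + 2) / ((κ : ℝ) + 1) + D ^ (r + 1))
          * (1 / (N : ℝ) ^ (r + 2)))
        + (N * N) * ((2 * ((κ : ℝ) ^ (r + 1) * D ^ (r + 2)))
          * (1 / ((N : ℝ) * ((N : ℝ) - 1)) ^ (r + 2)))) ≤ 1 / 4 := by
  have hN2 : (2 : ℝ) ≤ N := by exact_mod_cast hN
  have hN0 : (0 : ℝ) < N := by linarith
  have hD0 : (0 : ℝ) ≤ D := by positivity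
  have hδ0 := del_pos r
  have hδ1 := del_le r
  set δ := del r with hδ
  set P : ℝ := (N : ℝ) ^ (r + 1) with hP
  have hP0 : 0 < P := by positivity
  set K : ℝ := 24 * ((r : ℝ) + 3) with hK
  have hK0 : 0 < K := by positivity
  -- kappa
  have hk1 : (κ : ℝ) ≤ K * (D : ℝ) ^ (r + 2) / P := by
    rw [le_div_iff₀ hP0]
    have h3 : κ * N ^ (r + 1) ≤ 24 * (r + 3) * D ^ (r + 2) := by
      rw [hκ]
      exact Nat.div_mul_le_self _ _
    have h4 : ((κ * N ^ (r + 1) : ℕ) : ℝ) ≤ ((24 * (r + 3) * D ^ (r + 2) : ℕ) : ℝ) := by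
      exact_mod_cast h3
    push_cast at h4
    rw [hP, hK]
    linarith
  have hk2 : K * (D : ℝ) ^ (r + 2) ≤ ((κ : ℝ) + 1) * P := by
    have h3 : 24 * (r + 3) * D ^ (r + 2) < (κ + 1) * N ^ (r + 1) := by
      rw [hκ]
      have h5 : 0 < N ^ (r + 1) := by positivity
      have h6 := Nat.lt_mul_div_succ (24 * (r + 3) * D ^ (r + 2)) h5
      rw [mul_comm (N ^ (r + 1))] at h6
      exact h6
    have h4 : ((24 * (r + 3) * D ^ (r + 2) : ℕ) : ℝ) ≤ (((κ + 1) * N ^ (r + 1) : ℕ) : ℝ) := by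
      exact_mod_cast h3.le
    push_cast at h4
    rw [hP, hK]
    linarith
  have hx : (D : ℝ) / N ≤ δ := by
    rw [div_le_iff₀ hN0]
    exact h1
  have hx0 : 0 ≤ (D : ℝ) / N := by positivity
  have hx1 : (D : ℝ) / N ≤ 1 := hx.trans hδ1
  -- first group
  have e1 : (N : ℝ) * ((((r + 2 : ℕ) : ℝ) ^ 2 * (D * N ^ r) + (D : ℝ) ^ (r + 2) / ((κ : ℝ) + 1)
      + D ^ (r + 1)) * (1 / (N : ℝ) ^ (r + 2)))
      = ((r : ℝ) + 2) ^ 2 * ((D : ℝ) / N) + (D : ℝ) ^ (r + 2) / (((κ : ℝ) + 1) * P)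
        + ((D : ℝ) / N) ^ (r + 1) := by
    rw [hP, div_pow]
    push_cast
    have h3 : ((κ : ℝ) + 1) ≠ 0 := by positivity
    field_simp
    ring
  have b2 : (D : ℝ) ^ (r + 2) / (((κ : ℝ) + 1) * P) ≤ 1 / K := by
    rw [div_le_div_iff₀ (by positivity) hK0]
    linarith
  have b3 : ((D : ℝ) / N) ^ (r + 1) ≤ δ := by
    calc ((D : ℝ) / N) ^ (r + 1) = ((D : ℝ) / N) ^ r * ((D : ℝ) / N) := pow_succ _ _
      _ ≤ 1 * ((D : ℝ) / N) := by
          apply mul_le_mul_of_nonneg_right _ hx0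
          exact pow_le_one₀ hx0 hx1
      _ ≤ δ := by rw [one_mul]; exact hx
  -- second group
  have b4 : (N * N : ℝ) * ((2 * ((κ : ℝ) ^ (r + 1) * D ^ (r + 2)))
          * (1 / ((N : ℝ) * ((N : ℝ) - 1)) ^ (r + 2))) ≤ 2 ^ (r + 3) * K ^ (r + 1) * δ := by
    have h5 : (N : ℝ) * N / 2 ≤ (N : ℝ) * ((N : ℝ) - 1) := by nlinarith
    have h6 : ((N : ℝ) * N / 2) ^ (r + 2) ≤ ((N : ℝ) * ((N : ℝ) - 1)) ^ (r + 2) :=
      pow_le_pow_left₀ (by positivity) h5 _
    have h7 : ((N : ℝ) * N / 2) ^ (r + 2) = N * N * P ^ 2 / 2 ^ (r + 2) := by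
      rw [hP, div_pow]
      congr 1
      ring
    have h8 : 1 / ((N : ℝ) * ((N : ℝ) - 1)) ^ (r + 2) ≤ 1 / (N * N * P ^ 2 / 2 ^ (r + 2)) := by
      rw [← h7]
      exact one_div_le_one_div_of_le (by positivity) h6
    have h9 : (κ : ℝ) ^ (r + 1) ≤ (K * (D : ℝ) ^ (r + 2) / P) ^ (r + 1) :=
      pow_le_pow_left₀ (by positivity) hk1 _
    have h10 : (0 : ℝ) ≤ 1 / ((N : ℝ) * ((N : ℝ) - 1)) ^ (r + 2) := by
      have : (0 : ℝ) ≤ (N : ℝ) - 1 := by linarith
      positivity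
    calc (N * N : ℝ) * ((2 * ((κ : ℝ) ^ (r + 1) * D ^ (r + 2)))
          * (1 / ((N : ℝ) * ((N : ℝ) - 1)) ^ (r + 2)))
        ≤ (N * N : ℝ) * ((2 * ((K * (D : ℝ) ^ (r + 2) / P) ^ (r + 1) * D ^ (r + 2)))
          * (1 / (N * N * P ^ 2 / 2 ^ (r + 2)))) := by
          gcongr
      _ = 2 ^ (r + 3) * K ^ (r + 1) * ((D : ℝ) ^ ((r + 2) * (r + 2)) / P ^ (r + 3)) := by
          rw [div_pow, mul_pow, ← pow_mul]
          field_simp
          ring
      _ ≤ 2 ^ (r + 3) * K ^ (r + 1) * δ := by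
          apply mul_le_mul_of_nonneg_left _ (by positivity)
          rw [div_le_iff₀ (by positivity)]
          exact h2
  rw [e1]
  have hfin : 2 * ((r : ℝ) + 3) * ((((r : ℝ) + 2) ^ 2 + 1 + 2 ^ (r + 3) * K ^ (r + 1)) * δ)
      = 1 / 6 := by
    rw [hδ, hK]
    unfold del
    have : (((r : ℝ) + 2) ^ 2 + 1 + 2 ^ (r + 3) * (24 * ((r : ℝ) + 3)) ^ (r + 1)) ≠ 0 := by
      positivity
    field_simp
    norm_num
  have hfin2 : 2 * ((r : ℝ) + 3) * (1 / K) = 1 / 12 := by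
    rw [hK]
    field_simp
    norm_num
  have hr : (((r + 2 : ℕ) : ℝ) + 1) = (r : ℝ) + 3 := by
    push_cast
    ring
  rw [hr]
  have hb1 : ((r : ℝ) + 2) ^ 2 * ((D : ℝ) / N) ≤ ((r : ℝ) + 2) ^ 2 * δ :=
    mul_le_mul_of_nonneg_left hx (by positivity)
  calc 2 * ((r : ℝ) + 3) * (((r : ℝ) + 2) ^ 2 * ((D : ℝ) / N)
        + (D : ℝ) ^ (r + 2) / (((κ : ℝ) + 1) * P) + ((D : ℝ) / N) ^ (r + 1) +
        (N * N : ℝ) * ((2 * ((κ : ℝ) ^ (r + 1) * D ^ (r + 2)))
          * (1 / ((N : ℝ) * ((N : ℝ) - 1)) ^ (r + 2))))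
      ≤ 2 * ((r : ℝ) + 3) * (((r : ℝ) + 2) ^ 2 * δ + 1 / K + δ + 2 ^ (r + 3) * K ^ (r + 1) * δ) := by
        apply mul_le_mul_of_nonneg_left _ (by positivity)
        linarith
    _ = 2 * ((r : ℝ) + 3) * ((((r : ℝ) + 2) ^ 2 + 1 + 2 ^ (r + 3) * K ^ (r + 1)) * δ)
        + 2 * ((r : ℝ) + 3) * (1 / K) := by ring
    _ ≤ 1 / 4 := by
        rw [hfin, hfin2]
        norm_num

open Classical in
/-- parallel transversals -/
theorem core {V : Type*} [Fintype V] (r N D : ℕ) (hN : 2 ≤ N) (R : V → V → Prop)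
    (hR : ∀ u v, R u v → R v u) (hD : ∀ u, (univ.filter (fun v => R u v)).card ≤ D)
    (ι : Fin (r + 2) → Fin N → V) (hι : ∀ j x j' x', ι j x = ι j' x' → j = j' ∧ x = x')
    (W : Finset V) (hW : W.card ≤ 1) (h1 : (D : ℝ) ≤ del r * N)
    (h2 : (D : ℝ) ^ ((r + 2) * (r + 2)) ≤ del r * ((N : ℝ) ^ (r + 1)) ^ (r + 3)) :
    ∃ π : Fin (r + 2) → Equiv.Perm (Fin N),
      (∀ a k l, k ≠ l → ¬ R (ι l (π l a)) (ι k (π k a))) ∧
      (∀ a, ∀ w ∈ W, ∃ j, ¬ R w (ι j (π j a))) ∧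
      (∀ a a', a ≠ a' → ∃ j k, ¬ R (ι j (π j a)) (ι k (π k a'))) := by
  set κ : ℕ := 24 * (r + 3) * D ^ (r + 2) / N ^ (r + 1) with hκ
  have hnum := num_bound r N D hN h1 h2 κ hκ
  have er : r + 2 - 1 = r + 1 := by omega
  obtain ⟨Bad1, hBad1⟩ : ∃ B : (Fin (r + 2) → Fin N) → Prop, ∀ b, B b ↔
      ((∃ k l, k ≠ l ∧ R (ι l (b l)) (ι k (b k))) ∨
      κ < codeg R ι b ∨ ∃ w ∈ W, ∀ j, R w (ι j (b j))) := ⟨_, fun _ => Iff.rfl⟩
  obtain ⟨Bad2, hBad2⟩ : ∃ B : (Fin (r + 2) → Fin N) → (Fin (r + 2) → Fin N) → Prop,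
      ∀ b b', B b b' ↔ (codeg R ι b ≤ κ ∧ codeg R ι b' ≤ κ ∧
      ∀ j k, R (ι j (b j)) (ι k (b' k))) := ⟨_, fun _ _ => Iff.rfl⟩
  obtain ⟨π, hπ1, hπ2⟩ := transversal Bad1 Bad2
    (by omega) hN
    (((r + 2 : ℕ) : ℝ) ^ 2 * (D * N ^ r) + (D : ℝ) ^ (r + 2) / ((κ : ℝ) + 1) + D ^ (r + 1))
    ((κ : ℝ) ^ (r + 1) * D ^ (r + 2))
    (by
      intro j0 x0
      set C := univ.filter (fun b : Fin (r + 2) → Fin N => b j0 = x0 ∧ κ < codeg R ι b) with hC
      set E := (univ : Finset (Fin (r + 2) × Fin (r + 2))).biUnion (fun p =>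
        if p.1 ≠ j0 ∧ p.1 ≠ p.2 then
          univ.filter (fun b : Fin (r + 2) → Fin N =>
            b j0 = x0 ∧ R (ι p.2 (b p.2)) (ι p.1 (b p.1))) else ∅) with hE
      set Z := W.biUnion (fun w => univ.filter (fun b : Fin (r + 2) → Fin N =>
        b j0 = x0 ∧ ∀ j, R w (ι j (b j)))) with hZ
      have hsub : univ.filter (fun b : Fin (r + 2) → Fin N =>
          Bad1 b ∧ b j0 = x0) ⊆ E ∪ C ∪ Z := by
        intro b hb
        rw [mem_filter, hBad1] at hb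
        obtain ⟨_, hb1, hb2⟩ := hb
        rw [mem_union, mem_union]
        rcases hb1 with ⟨k, l, hkl, hr⟩ | hb1 | ⟨w, hw, hall⟩
        · left
          left
          rw [hE, mem_biUnion]
          by_cases hk : k = j0
          · refine ⟨(l, k), mem_univ _, ?_⟩
            have hl : l ≠ j0 := fun h => hkl (by rw [hk, h])
            rw [if_pos ⟨hl, hkl.symm⟩, mem_filter]
            exact ⟨mem_univ _, hb2, hR _ _ hr⟩
          · refine ⟨(k, l), mem_univ _, ?_⟩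
            rw [if_pos ⟨hk, hkl⟩, mem_filter]
            exact ⟨mem_univ _, hb2, hr⟩
        · left
          right
          rw [hC, mem_filter]
          exact ⟨mem_univ _, hb2, hb1⟩
        · right
          rw [hZ, mem_biUnion]
          refine ⟨w, hw, ?_⟩
          rw [mem_filter]
          exact ⟨mem_univ _, hb2, hall⟩
      have hEc : E.card ≤ (r + 2) ^ 2 * (D * N ^ r) := by
        refine (Finset.card_biUnion_le).trans ?_
        calc ∑ p : Fin (r + 2) × Fin (r + 2), (if p.1 ≠ j0 ∧ p.1 ≠ p.2 then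
              univ.filter (fun b : Fin (r + 2) → Fin N =>
                b j0 = x0 ∧ R (ι p.2 (b p.2)) (ι p.1 (b p.1))) else ∅).card
            ≤ ∑ _p : Fin (r + 2) × Fin (r + 2), D * N ^ r := by
              apply Finset.sum_le_sum
              intro p _
              split_ifs with hp
              · have := cnt_pair R ι hι D hD j0 p.1 p.2 x0 hp.1 hp.2
                simpa using this
              · simp
          _ = (r + 2) ^ 2 * (D * N ^ r) := by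
              rw [Finset.sum_const, Finset.card_univ, Fintype.card_prod, Fintype.card_fin,
                smul_eq_mul]
              ring
      have hCc : (C.card : ℝ) ≤ (D : ℝ) ^ (r + 2) / ((κ : ℝ) + 1) := by
        rw [le_div_iff₀ (by positivity)]
        have h3 := cnt_codeg (by omega) R hR ι hι D κ hD j0 x0
        have h4 : (((κ + 1) * C.card : ℕ) : ℝ) ≤ ((D ^ (r + 2) : ℕ) : ℝ) := by
          exact_mod_cast h3
        push_cast at h4
        linarith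
      have hZc : Z.card ≤ D ^ (r + 1) := by
        refine (Finset.card_biUnion_le).trans ?_
        calc ∑ w ∈ W, (univ.filter (fun b : Fin (r + 2) → Fin N =>
              b j0 = x0 ∧ ∀ j, R w (ι j (b j)))).card ≤ ∑ _w ∈ W, D ^ (r + 1) := by
              apply Finset.sum_le_sum
              intro w _
              exact cnt_star R ι hι D hD w j0 x0
          _ = W.card * D ^ (r + 1) := by rw [Finset.sum_const, smul_eq_mul]
          _ ≤ 1 * D ^ (r + 1) := Nat.mul_le_mul_right _ hW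
          _ = D ^ (r + 1) := one_mul _
      have hEc' : (E.card : ℝ) ≤ ((r + 2 : ℕ) : ℝ) ^ 2 * (D * N ^ r) := by
        exact_mod_cast hEc
      have hZc' : (Z.card : ℝ) ≤ D ^ (r + 1) := by
        exact_mod_cast hZc
      have h5 : ((univ.filter (fun b : Fin (r + 2) → Fin N =>
          Bad1 b ∧ b j0 = x0)).card : ℝ)
          ≤ E.card + C.card + Z.card := by
        have h6 := (Finset.card_le_card hsub).trans ((Finset.card_union_le _ _).trans
          (Nat.add_le_add_right (Finset.card_union_le _ _) _))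
        exact_mod_cast h6
      linarith)
    (by
      intro j0 x0
      have h3 := cnt_two (by omega) R ι hι D κ hD j0 x0
      rw [er] at h3
      have h4 : univ.filter (fun q : (Fin (r + 2) → Fin N) × (Fin (r + 2) → Fin N) =>
          Bad2 q.1 q.2 ∧ q.1 j0 = x0) ⊆
          univ.filter (fun q : (Fin (r + 2) → Fin N) × (Fin (r + 2) → Fin N) =>
          q.1 j0 = x0 ∧ codeg R ι q.2 ≤ κ ∧ ∀ j k, R (ι j (q.1 j)) (ι k (q.2 k))) := by
        intro q hq
        rw [mem_filter, hBad2] at hq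
        rw [mem_filter]
        exact ⟨mem_univ _, hq.2.2, hq.2.1.2.1, hq.2.1.2.2⟩
      have h5 := (Finset.card_le_card h4).trans h3
      exact_mod_cast h5)
    (by
      intro j0 x0
      have h3 := cnt_two (by omega) R ι hι D κ hD j0 x0
      rw [er] at h3
      have h5 : (univ.filter (fun q : (Fin (r + 2) → Fin N) × (Fin (r + 2) → Fin N) =>
          Bad2 q.1 q.2 ∧ q.2 j0 = x0)).card ≤
          (univ.filter (fun q : (Fin (r + 2) → Fin N) × (Fin (r + 2) → Fin N) =>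
          q.1 j0 = x0 ∧ codeg R ι q.2 ≤ κ ∧ ∀ j k, R (ι j (q.1 j)) (ι k (q.2 k)))).card := by
        apply Finset.card_le_card_of_injOn (fun q => (q.2, q.1))
        · intro q hq
          have hq' := (mem_filter.1 (mem_coe.1 hq)).2
          rw [hBad2] at hq'
          apply mem_coe.2
          rw [mem_filter]
          exact ⟨mem_univ _, hq'.2, hq'.1.1, fun j k => hR _ _ (hq'.1.2.2 k j)⟩
        · intro q _ q' _ h
          exact Prod.ext (congrArg Prod.snd h) (congrArg Prod.fst h)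
      have h6 := h5.trans h3
      exact_mod_cast h6)
    hnum
  refine ⟨π, ?_, ?_, ?_⟩
  · intro a k l hkl hr
    exact hπ1 a ((hBad1 _).2 (Or.inl ⟨k, l, hkl, hr⟩))
  · intro a w hw
    by_contra hcon
    push Not at hcon
    exact hπ1 a ((hBad1 _).2 (Or.inr (Or.inr ⟨w, hw, hcon⟩)))
  · intro a a' haa
    by_contra hcon
    push Not at hcon
    apply hπ2 a a' haa
    rw [hBad2]
    refine ⟨?_, ?_, hcon⟩
    · by_contra hk
      exact hπ1 a ((hBad1 _).2 (Or.inr (Or.inl (not_le.1 hk))))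
    · by_contra hk
      exact hπ1 a' ((hBad1 _).2 (Or.inr (Or.inl (not_le.1 hk))))

end Vale.Agent.P060
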