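import Mathlib
import Vale.Agent.P060.Main

/-! Small clique number and bounded independence number force a sparse complement. -/

namespace Vale.Agent.P060

open Finset

/-- elementary Ramsey bound -/
def rb : ℕ → ℕ → ℕ
  | 0, _ => 0
  | a + 1, w => w * (1 + rb a w)

lemma rb_le (a w : ℕ) : rb a w ≤ a * w ^ a := by
  rcases Nat.eq_zero_or_pos w with hw | hw
  · subst hw
    cases a with
    | zero => simp [rb]
    | succ a => simp [rb]
  induction a with
  | zero => simp [rb]
  | succ a ih =>
    calc rb (a + 1) w = w * (1 + rb a w) := rfl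
      _ ≤ w * (w ^ a + a * w ^ a) := by
          apply Nat.mul_le_mul_left
          exact Nat.add_le_add (Nat.one_le_pow _ _ hw) ih
      _ = (a + 1) * w ^ (a + 1) := by ring

open Classical in
lemma ramsey {V : Type} [Fintype V] (G : SimpleGraph V) (w : ℕ) : ∀ (a : ℕ) (X : Finset V),
    (∀ Y : Finset V, Y ⊆ X → G.IsIndepSet (Y : Set V) → Y.card ≤ a) →
    (∀ Y : Finset V, Y ⊆ X → G.IsClique (Y : Set V) → Y.card ≤ w) → X.card ≤ rb a w := by
  intro a
  induction a with
  | zero =>
    intro X h1 _
    rw [rb, Nat.le_zero, Finset.card_eq_zero]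
    by_contra hne
    obtain ⟨v, hv⟩ := Finset.nonempty_iff_ne_empty.2 hne
    have h2 := h1 {v} (Finset.singleton_subset_iff.2 hv) (by
      rw [Finset.coe_singleton]
      exact Set.pairwise_singleton _ _)
    rw [Finset.card_singleton] at h2
    omega
  | succ a ih =>
    have key : ∀ k : ℕ, k ≤ w → ∀ X : Finset V,
        (∀ Y : Finset V, Y ⊆ X → G.IsIndepSet (Y : Set V) → Y.card ≤ a + 1) →
        (∀ Y : Finset V, Y ⊆ X → G.IsClique (Y : Set V) → Y.card ≤ k) →
        X.card ≤ k * (1 + rb a w) := by
      intro k
      induction k with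
      | zero =>
        intro _ X _ h2
        rw [zero_mul, Nat.le_zero, Finset.card_eq_zero]
        by_contra hne
        obtain ⟨v, hv⟩ := Finset.nonempty_iff_ne_empty.2 hne
        have h3 := h2 {v} (Finset.singleton_subset_iff.2 hv) (by
          rw [Finset.coe_singleton]
          exact Set.pairwise_singleton _ _)
        rw [Finset.card_singleton] at h3
        omega
      | succ k ihk =>
        intro hk X h1 h2
        by_cases hX : X = ∅
        · rw [hX]
          simp
        obtain ⟨v, hv⟩ := Finset.nonempty_iff_ne_empty.2 hX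
        set P := (X.erase v).filter (fun u => G.Adj v u) with hP
        set Q := (X.erase v).filter (fun u => ¬ G.Adj v u) with hQ
        have hcard : X.card = 1 + (P.card + Q.card) := by
          rw [hP, hQ, Finset.card_filter_add_card_filter_not, Finset.card_erase_of_mem hv]
          have : 0 < X.card := Finset.card_pos.2 ⟨v, hv⟩
          omega
        have hPX : P ⊆ X := (Finset.filter_subset _ _).trans (Finset.erase_subset _ _)
        have hQX : Q ⊆ X := (Finset.filter_subset _ _).trans (Finset.erase_subset _ _)
        have hPc : P.card ≤ k * (1 + rb a w) := by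
          apply ihk (by omega) P
          · intro Y hY hI
            exact h1 Y (hY.trans hPX) hI
          · intro Y hY hC
            have hvY : v ∉ Y := by
              intro h
              have := hY h
              rw [hP, mem_filter, mem_erase] at this
              exact this.1.1 rfl
            have h3 := h2 (insert v Y) (Finset.insert_subset hv (hY.trans hPX)) (by
              rw [Finset.coe_insert]
              rw [SimpleGraph.isClique_insert]
              refine ⟨hC, ?_⟩
              intro u hu _
              have := hY (mem_coe.1 hu)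
              rw [hP, mem_filter] at this
              exact this.2)
            rw [Finset.card_insert_of_notMem hvY] at h3
            omega
        have hQc : Q.card ≤ rb a w := by
          apply ih Q
          · intro Y hY hI
            have hvY : v ∉ Y := by
              intro h
              have := hY h
              rw [hQ, mem_filter, mem_erase] at this
              exact this.1.1 rfl
            have h3 := h1 (insert v Y) (Finset.insert_subset hv (hY.trans hQX)) (by
              rw [Finset.coe_insert]
              intro x hx y hy hxy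
              rcases hx with rfl | hx
              · rcases hy with rfl | hy
                · exact absurd rfl hxy
                · have := hY (mem_coe.1 hy)
                  rw [hQ, mem_filter] at this
                  exact this.2
              · rcases hy with rfl | hy
                · have := hY (mem_coe.1 hx)
                  rw [hQ, mem_filter] at this
                  exact fun h => this.2 h.symm
                · exact hI hx hy hxy)
            rw [Finset.card_insert_of_notMem hvY] at h3
            omega
          · intro Y hY hC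
            exact (h2 Y (hY.trans hQX) hC).trans hk
        rw [hcard]
        calc 1 + (P.card + Q.card) ≤ 1 + (k * (1 + rb a w) + rb a w) := by omega
          _ = (k + 1) * (1 + rb a w) := by ring
    intro X h1 h2
    exact key w le_rfl X h1 h2

open Classical in
/-- in a graph with independence number at most `s` every vertex has few non-neighbours -/
lemma nonnb {V : Type} [Fintype V] (G : SimpleGraph V) (s : ℕ) (hs : 1 ≤ s)
    (hα : G.indepNum ≤ s) (u : V) :
    (univ.filter (fun v => Gᶜ.Adj u v)).card ≤ (s - 1) * G.cliqueNum ^ (s - 1) := by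
  refine le_trans (ramsey G G.cliqueNum (s - 1) _ ?_ ?_) (rb_le _ _)
  · intro Y hY hI
    have hvY : u ∉ Y := by
      intro h
      have := hY h
      rw [mem_filter, SimpleGraph.compl_adj] at this
      exact this.2.1 rfl
    have h3 : (insert u Y).card ≤ G.indepNum := by
      apply SimpleGraph.IsIndepSet.card_le_indepNum
      rw [Finset.coe_insert]
      intro x hx y hy hxy
      rcases hx with rfl | hx
      · rcases hy with rfl | hy
        · exact absurd rfl hxy
        · have := hY (mem_coe.1 hy)
          rw [mem_filter, SimpleGraph.compl_adj] at this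
          exact this.2.2
      · rcases hy with rfl | hy
        · have := hY (mem_coe.1 hx)
          rw [mem_filter, SimpleGraph.compl_adj] at this
          exact fun h => this.2.2 h.symm
        · exact hI hx hy hxy
    rw [Finset.card_insert_of_notMem hvY] at h3
    omega
  · intro Y _ hC
    exact SimpleGraph.IsClique.card_le_cliqueNum (tc := hC)

lemma minor_mono {V : Type} (G : SimpleGraph V) {t t' : ℕ} (h : HasCliqueMinor G t)
    (htt : t' ≤ t) : HasCliqueMinor G t' := by
  obtain ⟨B, h1, h2, h3⟩ := h
  refine ⟨fun i => B (Fin.castLE htt i), fun i => h1 _, ?_, ?_⟩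
  · intro i j hij
    exact h2 _ _ (fun h => hij (Fin.castLE_injective htt h))
  · intro i j hij
    exact h3 _ _ (fun h => hij (Fin.castLE_injective htt h))

/-- final form -/
theorem final (s : ℕ) (hs : 2 ≤ s) : ∃ c : ℝ, 0 < c ∧ ∀ (V : Type) [Fintype V]
    (G : SimpleGraph V),
    ((∀ v, ((Gᶜ.neighborSet v).ncard : ℝ) ≤
        c * (Fintype.card V : ℝ) ^ (1 - 1 / (s : ℝ) ^ 2)) ∨
      (G.indepNum ≤ s ∧
        (G.cliqueNum : ℝ) ≤ c * (Fintype.card V : ℝ) ^ (((s : ℝ) + 1) / (s : ℝ) ^ 2))) →
    HasCliqueMinor G ⌈(Fintype.card V : ℝ) / s⌉₊ ∧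
      (G.Colorable ⌈(Fintype.card V : ℝ) / s⌉₊ →
        ∀ t, ¬ HasCliqueMinor G (t + 1) → G.Colorable t) := by
  classical
  obtain ⟨c, hc0, hc⟩ := main s hs
  have hs1 : (1 : ℝ) ≤ (s : ℝ) - 1 := by
    have : (2 : ℝ) ≤ s := by exact_mod_cast hs
    linarith
  have hs2 : (2 : ℝ) ≤ s := by exact_mod_cast hs
  set c' : ℝ := min 1 c / ((s : ℝ) - 1) with hc'
  have hc'0 : 0 < c' := by
    apply div_pos _ (by linarith)
    exact lt_min one_pos hc0
  have hc'1 : c' ≤ 1 := by
    rw [hc', div_le_one (by linarith)]
    exact (min_le_left _ _).trans hs1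
  have hc'c : ((s : ℝ) - 1) * c' ≤ c := by
    have h1 : ((s : ℝ) - 1) * c' = min 1 c := by
      rw [hc']
      have : (s : ℝ) - 1 ≠ 0 := by linarith
      field_simp
    rw [h1]
    exact min_le_right _ _
  have hc'c2 : c' ≤ c := by
    calc c' = 1 * c' := (one_mul _).symm
      _ ≤ ((s : ℝ) - 1) * c' := mul_le_mul_of_nonneg_right hs1 hc'0.le
      _ ≤ c := hc'c
  refine ⟨c', hc'0, ?_⟩
  intro V _ G hyp
  set m := Fintype.card V with hm
  have hmain : HasCliqueMinor G ((m + s - 1) / s) := by
    apply hc V G
    intro u
    rcases hyp with hyp | ⟨hα, hω⟩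
    · have h1 : (Gᶜ.neighborSet u).ncard = (univ.filter (fun v => Gᶜ.Adj u v)).card := by
        rw [← Set.ncard_coe_finset]
        congr 1
        ext v
        simp [SimpleGraph.mem_neighborSet]
      have h2 := hyp u
      rw [h1] at h2
      refine h2.trans ?_
      apply mul_le_mul_of_nonneg_right hc'c2 (by positivity)
    · have h1 := nonnb G s (by omega) hα u
      have h2 : ((univ.filter (fun v => Gᶜ.Adj u v)).card : ℝ)
          ≤ ((s : ℝ) - 1) * (G.cliqueNum : ℝ) ^ (s - 1) := by
        have h3 : ((univ.filter (fun v => Gᶜ.Adj u v)).card : ℝ)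
          ≤ (((s - 1) * G.cliqueNum ^ (s - 1) : ℕ) : ℝ) := by exact_mod_cast h1
        rw [Nat.cast_mul, Nat.cast_pow, Nat.cast_sub (by omega), Nat.cast_one] at h3
        exact h3
      refine h2.trans ?_
      have h4 : ((m : ℝ) ^ (((s : ℝ) + 1) / (s : ℝ) ^ 2)) ^ (s - 1)
          = (m : ℝ) ^ (1 - 1 / (s : ℝ) ^ 2) := by
        rw [← Real.rpow_natCast, ← Real.rpow_mul (by positivity)]
        congr 1
        rw [Nat.cast_sub (by omega), Nat.cast_one]
        have : (s : ℝ) ≠ 0 := by linarith
        field_simp
        ring
      calc ((s : ℝ) - 1) * (G.cliqueNum : ℝ) ^ (s - 1)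
          ≤ ((s : ℝ) - 1) * (c' * (m : ℝ) ^ (((s : ℝ) + 1) / (s : ℝ) ^ 2)) ^ (s - 1) := by
            apply mul_le_mul_of_nonneg_left _ (by linarith)
            exact pow_le_pow_left₀ (by positivity) hω _
        _ = ((s : ℝ) - 1) * c' ^ (s - 1) * (m : ℝ) ^ (1 - 1 / (s : ℝ) ^ 2) := by
            rw [mul_pow, h4]
            ring
        _ ≤ ((s : ℝ) - 1) * c' * (m : ℝ) ^ (1 - 1 / (s : ℝ) ^ 2) := by
            apply mul_le_mul_of_nonneg_right _ (by positivity)
            apply mul_le_mul_of_nonneg_left _ (by linarith)
            exact pow_le_of_le_one hc'0.le hc'1 (by omega)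
        _ ≤ c * (m : ℝ) ^ (1 - 1 / (s : ℝ) ^ 2) := by
            apply mul_le_mul_of_nonneg_right hc'c (by positivity)
  have hceil : ⌈(m : ℝ) / s⌉₊ ≤ (m + s - 1) / s := by
    rw [Nat.ceil_le, div_le_iff₀ (by linarith)]
    have h1 : m ≤ (m + s - 1) / s * s := by
      have h2 := Nat.lt_div_mul_add (a := m + s - 1) (b := s) (by omega)
      omega
    exact_mod_cast h1
  have hmin := minor_mono G hmain hceil
  refine ⟨hmin, ?_⟩
  intro hcol t ht
  have h1 : ⌈(m : ℝ) / s⌉₊ ≤ t := by
    by_contra hcon
    apply ht
    exact minor_mono G hmin (by omega)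
  exact hcol.mono h1

end Vale.Agent.P060
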